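import Vale.Agent.Lib.P099.Defs

/-!
P099: in a triangle all of whose angles are irrational multiples of pi, every continuous first
integral of the billiard flow on the closed phase space is constant.
-/

open Set Topology Filter

namespace Vale.Agent.P099

/-! ### reflections -/

theorem reflectDir_add (e a b : ℂ) : reflectDir e (a + b) = reflectDir e a + reflectDir e b := by
  simp [reflectDir, mul_add]

theorem reflectDir_smul (e a : ℂ) (t : ℝ) : reflectDir e (t * a) = t * reflectDir e a := by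
  simp only [reflectDir, map_mul, Complex.conj_ofReal]
  ring

theorem reflectDir_self {e : ℂ} (he : e ≠ 0) : reflectDir e e = e := by
  have : (starRingEnd ℂ) e ≠ 0 := by simpa using he
  simp only [reflectDir]
  field_simp

theorem norm_reflectDir {e : ℂ} (he : e ≠ 0) (a : ℂ) : ‖reflectDir e a‖ = ‖a‖ := by
  have : ‖e‖ ≠ 0 := by simpa using he
  simp only [reflectDir, norm_mul, norm_div, Complex.norm_conj]
  field_simp

theorem reflectDir_add_self {e : ℂ} (he : e ≠ 0) (a : ℂ) :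
    ∃ r : ℝ, a + reflectDir e a = r * e := by
  refine ⟨(2 * (a * (starRingEnd ℂ) e).re) / Complex.normSq e, ?_⟩
  have h1 : (starRingEnd ℂ) e ≠ 0 := by simpa using he
  have h2 : ((Complex.normSq e : ℝ) : ℂ) = e * (starRingEnd ℂ) e := (Complex.mul_conj e).symm
  have h3 : ((2 * (a * (starRingEnd ℂ) e).re : ℝ) : ℂ)
      = a * (starRingEnd ℂ) e + (starRingEnd ℂ) a * e := by
    have := Complex.add_conj (a * (starRingEnd ℂ) e)
    rw [map_mul, Complex.conj_conj] at this
    rw [this]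
  rw [Complex.ofReal_div, h2, h3]
  simp only [reflectDir]
  field_simp

/-! ### barycentric coordinates -/

section bary

variable (b : AffineBasis (Fin 3) ℝ ℂ)

/-- linear part of the barycentric coordinate -/
noncomputable def dco (i : Fin 3) (w : ℂ) : ℝ := (b.coord i).linear w

theorem coord_add (i : Fin 3) (x w : ℂ) : b.coord i (x + w) = b.coord i x + dco b i w := by
  have := (b.coord i).map_vadd x w
  simp only [vadd_eq_add] at this
  rw [add_comm x w, this, dco]
  ring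

theorem dco_smul (i : Fin 3) (t : ℝ) (w : ℂ) : dco b i (t * w) = t * dco b i w := by
  have : ((t : ℂ) * w) = t • w := by simp
  rw [this, dco, map_smul, smul_eq_mul, dco]

theorem dco_add (i : Fin 3) (v w : ℂ) : dco b i (v + w) = dco b i v + dco b i w :=
  map_add _ _ _

theorem dco_sub (i : Fin 3) (v w : ℂ) : dco b i (v - w) = dco b i v - dco b i w :=
  map_sub _ _ _

theorem coord_add_smul (i : Fin 3) (x w : ℂ) (t : ℝ) :
    b.coord i (x + t * w) = b.coord i x + t * dco b i w := by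
  rw [coord_add, dco_smul]

theorem dco_continuous (i : Fin 3) : Continuous (dco b i) :=
  (b.coord i).linear.continuous_of_finiteDimensional

theorem coord_continuous (i : Fin 3) : Continuous (b.coord i) :=
  (b.coord i).continuous_of_finiteDimensional

theorem sum_coord (x : ℂ) : b.coord 0 x + b.coord 1 x + b.coord 2 x = 1 := by
  have := b.sum_coord_apply_eq_one x
  rwa [Fin.sum_univ_three] at this

theorem eq_coord (x : ℂ) : x = b.coord 0 x * b 0 + b.coord 1 x * b 1 + b.coord 2 x * b 2 := by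
  have := b.linear_combination_coord_eq_self x
  rw [Fin.sum_univ_three] at this
  simpa using this.symm

theorem sum_dco (w : ℂ) : dco b 0 w + dco b 1 w + dco b 2 w = 0 := by
  have h1 := sum_coord b (0 + w)
  have h2 := sum_coord b 0
  rw [coord_add, coord_add, coord_add] at h1
  linarith

theorem eq_dco (w : ℂ) : w = dco b 0 w * b 0 + dco b 1 w * b 1 + dco b 2 w * b 2 := by
  have h1 := eq_coord b (0 + w)
  have h2 := eq_coord b 0
  rw [coord_add, coord_add, coord_add] at h1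
  push_cast at h1
  linear_combination h1 - h2

theorem mem_table {x : ℂ} : x ∈ table b ↔ ∀ i, 0 ≤ b.coord i x := by
  rw [table, b.convexHull_eq_nonneg_coord]
  rfl

theorem mem_int {x : ℂ} : x ∈ interior (table b) ↔ ∀ i, 0 < b.coord i x := by
  rw [table, b.interior_convexHull]
  rfl

theorem mem_vertex (l : Fin 3) : b l ∈ table b := subset_convexHull ℝ _ ⟨l, rfl⟩

theorem coord_vertex (i l : Fin 3) : b.coord i (b l) = if i = l then 1 else 0 :=
  b.coord_apply i l

theorem dco_vertex (i j k : Fin 3) :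
    dco b i (b j - b k) = (if i = j then 1 else 0) - (if i = k then 1 else 0) := by
  have h := coord_add b i (b k) (b j - b k)
  rw [add_sub_cancel, coord_vertex, coord_vertex] at h
  linarith

theorem decomp (i : Fin 3) (w : ℂ) :
    w = dco b i w * (b i - b (i + 1)) + dco b (i + 2) w * (b (i + 2) - b (i + 1)) := by
  have h1 := eq_dco b w
  have h2 : (dco b 0 w : ℂ) + dco b 1 w + dco b 2 w = 0 := by exact_mod_cast sum_dco b w
  match i with
  | 0 =>
    change w = dco b 0 w * (b 0 - b 1) + dco b 2 w * (b 2 - b 1)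
    linear_combination h1 + b 1 * h2
  | 1 =>
    change w = dco b 1 w * (b 1 - b 2) + dco b 0 w * (b 0 - b 2)
    linear_combination h1 + b 2 * h2
  | 2 =>
    change w = dco b 2 w * (b 2 - b 0) + dco b 1 w * (b 1 - b 0)
    linear_combination h1 + b 0 * h2

theorem exists_bound : ∃ D : ℝ, 0 < D ∧ ∀ j k : Fin 3, j ≠ k → ∀ w : ℂ,
    ‖w‖ ≤ D * (|dco b j w| + |dco b k w|) := by
  set D : ℝ := 1 + ∑ i, ∑ j, ‖b i - b j‖ with hD
  have hS : ∀ i j : Fin 3, ‖b i - b j‖ ≤ D := by
    intro i j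
    have h1 : ‖b i - b j‖ ≤ ∑ j, ‖b i - b j‖ :=
      Finset.single_le_sum (f := fun j => ‖b i - b j‖) (fun _ _ => norm_nonneg _)
        (Finset.mem_univ j)
    have h2 : ∑ j, ‖b i - b j‖ ≤ ∑ i, ∑ j, ‖b i - b j‖ :=
      Finset.single_le_sum (f := fun i => ∑ j, ‖b i - b j‖)
        (fun _ _ => Finset.sum_nonneg fun _ _ => norm_nonneg _) (Finset.mem_univ i)
    linarith
  have key : ∀ (i : Fin 3) (w : ℂ), ‖w‖ ≤ D * (|dco b i w| + |dco b (i + 2) w|) := by
    intro i w
    calc ‖w‖ = ‖(dco b i w : ℂ) * (b i - b (i + 1))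
          + dco b (i + 2) w * (b (i + 2) - b (i + 1))‖ := by rw [← decomp b i w]
      _ ≤ |dco b i w| * ‖b i - b (i + 1)‖ + |dco b (i + 2) w| * ‖b (i + 2) - b (i + 1)‖ := by
          refine (norm_add_le _ _).trans ?_
          simp only [norm_mul, Complex.norm_real, Real.norm_eq_abs]
          exact le_rfl
      _ ≤ |dco b i w| * D + |dco b (i + 2) w| * D := by
          gcongr
          · exact hS _ _
          · exact hS _ _
      _ = _ := by ring
  refine ⟨D, by positivity, fun j k hjk w => ?_⟩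
  have h3 : ∀ j k : Fin 3, j ≠ k → k = j + 2 ∨ j = k + 2 := by decide
  rcases h3 j k hjk with h | h
  · rw [h]; exact key j w
  · rw [h, add_comm]; exact key k w

theorem vertex_of_zero {j k : Fin 3} (hjk : j ≠ k) {x : ℂ} (hj : b.coord j x = 0)
    (hk : b.coord k x = 0) : ∃ l, x = b l := by
  obtain ⟨D, -, hD⟩ := exists_bound b
  have h3 : ∀ j k : Fin 3, ∃ l, j ≠ l ∧ k ≠ l := by decide
  obtain ⟨l, hl1, hl2⟩ := h3 j k
  refine ⟨l, ?_⟩
  have e : ∀ i, dco b i (x - b l) = b.coord i x - b.coord i (b l) := by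
    intro i
    have h := coord_add b i (b l) (x - b l)
    rw [add_sub_cancel] at h
    linarith
  have h := hD j k hjk (x - b l)
  rw [e, e, hj, hk, coord_vertex, coord_vertex, if_neg hl1, if_neg hl2] at h
  simp only [sub_zero, abs_zero, add_zero, mul_zero] at h
  exact sub_eq_zero.1 (norm_le_zero_iff.1 h)

theorem exists_lip : ∃ C : ℝ, 0 < C ∧ ∀ (i : Fin 3) (w : ℂ), |dco b i w| ≤ C * ‖w‖ := by
  have h : ∀ i : Fin 3, ∃ C : ℝ, 0 ≤ C ∧ ∀ w : ℂ, |dco b i w| ≤ C * ‖w‖ := by
    intro i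
    refine ⟨‖(b.coord i).linear.toContinuousLinearMap‖, norm_nonneg _, fun w => ?_⟩
    exact (b.coord i).linear.toContinuousLinearMap.le_opNorm w
  choose C hC0 hC using h
  refine ⟨1 + ∑ i, C i, by have := Finset.sum_nonneg (fun i (_ : i ∈ Finset.univ) => hC0 i)
                           positivity, fun i w => (hC i w).trans ?_⟩
  have : C i ≤ ∑ i, C i := Finset.single_le_sum (fun i _ => hC0 i) (Finset.mem_univ i)
  gcongr
  linarith

theorem edge_ne (i : Fin 3) : b (i + 2) - b (i + 1) ≠ 0 := by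
  intro h
  have h2 := dco_vertex b (i + 2) (i + 2) (i + 1)
  have h3 : ∀ i : Fin 3, i + 2 ≠ i + 1 := by decide
  rw [h, if_pos rfl, if_neg (h3 i)] at h2
  simp [dco] at h2

/-- the altitude vector -/
noncomputable def alt (i : Fin 3) : ℂ :=
  (b i - b (i + 1) - reflectDir (b (i + 2) - b (i + 1)) (b i - b (i + 1))) / 2

theorem reflect_formula (i : Fin 3) (w : ℂ) :
    reflectDir (b (i + 2) - b (i + 1)) w = w - 2 * dco b i w * alt b i := by
  conv_lhs => rw [decomp b i w]
  rw [reflectDir_add, reflectDir_smul, reflectDir_smul, reflectDir_self (edge_ne b i), alt]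
  have h := decomp b i w
  linear_combination - h

theorem dco_edge (i : Fin 3) : dco b i (b (i + 2) - b (i + 1)) = 0 := by
  have h3 : ∀ i : Fin 3, i ≠ i + 2 ∧ i ≠ i + 1 := by decide
  rw [dco_vertex, if_neg (h3 i).1, if_neg (h3 i).2, sub_zero]

theorem dco_alt (i : Fin 3) : dco b i (alt b i) = 1 := by
  have h3 : ∀ i : Fin 3, i ≠ i + 1 := by decide
  obtain ⟨r, hr⟩ := reflectDir_add_self (edge_ne b i) (b i - b (i + 1))
  have h1 : alt b i = (b i - b (i + 1)) + ((-(r / 2) : ℝ) : ℂ) * (b (i + 2) - b (i + 1)) := by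
    rw [alt]
    push_cast
    linear_combination (-1 / 2 : ℂ) * hr
  rw [h1, dco_add, dco_smul, dco_edge, dco_vertex, if_pos rfl, if_neg (h3 i)]
  ring

theorem dco_reflect (i : Fin 3) (w : ℂ) :
    dco b i (reflectDir (b (i + 2) - b (i + 1)) w) = - dco b i w := by
  rw [reflect_formula, dco_sub]
  have : (2 * (dco b i w : ℂ) * alt b i) = ((2 * dco b i w : ℝ) : ℂ) * alt b i := by push_cast; ring
  rw [this, dco_smul, dco_alt]
  ring

theorem exit {x d : ℂ} (hx : ∀ i, 0 ≤ b.coord i x) (hd : d ≠ 0)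
    (h0 : ∀ i, b.coord i x = 0 → 0 < dco b i d) :
    ∃ j, ∃ s : ℝ, 0 < s ∧ dco b j d < 0 ∧ (∀ i, 0 ≤ b.coord i (x + s * d)) ∧
      b.coord j (x + s * d) = 0 := by
  classical
  set S : Finset (Fin 3) := Finset.univ.filter (fun i => dco b i d < 0) with hS
  have hne : S.Nonempty := by
    by_contra hcon
    rw [Finset.not_nonempty_iff_eq_empty] at hcon
    have hge : ∀ i, 0 ≤ dco b i d := by
      intro i
      by_contra hi
      have : i ∈ S := by rw [hS, Finset.mem_filter]; exact ⟨Finset.mem_univ i, not_le.1 hi⟩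
      rw [hcon] at this
      exact absurd this (Finset.notMem_empty i)
    have hs := sum_dco b d
    have a0 := hge 0
    have a1 := hge 1
    have a2 := hge 2
    have b0 : dco b 0 d = 0 := by linarith
    have b1 : dco b 1 d = 0 := by linarith
    have b2 : dco b 2 d = 0 := by linarith
    apply hd
    rw [eq_dco b d, b0, b1, b2]
    simp
  obtain ⟨j, hjS, hmin⟩ := Finset.exists_min_image S (fun i => b.coord i x / (-dco b i d)) hne
  have hj : dco b j d < 0 := (Finset.mem_filter.1 hjS).2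
  have hjx : 0 < b.coord j x := by
    rcases (hx j).lt_or_eq with h | h
    · exact h
    · exact absurd (h0 j h.symm) (not_lt.2 hj.le)
  refine ⟨j, b.coord j x / (-dco b j d), div_pos hjx (by linarith), hj, fun i => ?_, ?_⟩
  · rw [coord_add_smul]
    rcases lt_or_ge (dco b i d) 0 with hi | hi
    · have hiS : i ∈ S := Finset.mem_filter.2 ⟨Finset.mem_univ i, hi⟩
      have h1 := hmin i hiS
      rw [le_div_iff₀ (by linarith)] at h1
      linarith
    · have h2 : 0 ≤ b.coord j x / (-dco b j d) := (div_pos hjx (by linarith)).le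
      have := hx i
      positivity
  · rw [coord_add_smul]
    have : dco b j d ≠ 0 := hj.ne
    field_simp
    ring

/-- time at which the ray from `y` in direction `d` meets the line of side `j` -/
noncomputable def tau (y : ℂ) (j : Fin 3) (d : ℂ) : ℝ := b.coord j y / (-dco b j d)

theorem coord_tau {y d : ℂ} {j : Fin 3} (h : dco b j d < 0) :
    b.coord j (y + tau b y j d * d) = 0 := by
  rw [coord_add_smul, tau]
  have : dco b j d ≠ 0 := h.ne
  field_simp
  ring

theorem tau_unique {y d : ℂ} {j : Fin 3} (h : dco b j d < 0) {t : ℝ}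
    (ht : b.coord j (y + t * d) = 0) : t = tau b y j d := by
  rw [coord_add_smul] at ht
  rw [tau, eq_div_iff (by linarith)]
  linarith

theorem exit_unique {y d : ℂ} (hvert : ∀ (s : ℝ) (l : Fin 3), y + s * d ≠ b l) {j k : Fin 3}
    (hj : dco b j d < 0) (hk : dco b k d < 0)
    (hj' : ∀ i, 0 ≤ b.coord i (y + tau b y j d * d))
    (hk' : ∀ i, 0 ≤ b.coord i (y + tau b y k d * d)) : j = k := by
  by_contra hjk
  have h1 : tau b y k d ≤ tau b y j d := by
    have e1 := coord_tau b (y := y) hj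
    have e2 := hk' j
    rw [coord_add_smul] at e1 e2
    nlinarith
  have h2 : tau b y j d ≤ tau b y k d := by
    have e1 := coord_tau b (y := y) hk
    have e2 := hj' k
    rw [coord_add_smul] at e1 e2
    nlinarith
  have h3 : tau b y j d = tau b y k d := le_antisymm h2 h1
  obtain ⟨l, hl⟩ := vertex_of_zero b hjk (coord_tau b (y := y) hj)
    (by rw [h3]; exact coord_tau b (y := y) hk)
  exact hvert _ l hl

theorem step {I : Set ℝ} (hI : IsPreconnected I) (hne : I.Nonempty) (y : ℂ) (v : ℝ → ℂ)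
    (hv : Continuous v) (hv0 : ∀ u ∈ I, v u ≠ 0) (t : ℝ → ℝ)
    (hin : ∀ u ∈ I, ∀ i, 0 ≤ b.coord i (y + t u * v u))
    (h0 : ∀ u ∈ I, ∀ i, b.coord i (y + t u * v u) = 0 → 0 < dco b i (v u))
    (hvert : ∀ u ∈ I, ∀ (s : ℝ) (l : Fin 3), y + s * v u ≠ b l) :
    ∃ j, ∀ u ∈ I, dco b j (v u) < 0 ∧ t u < tau b y j (v u) ∧
      ∀ i, 0 ≤ b.coord i (y + tau b y j (v u) * v u) := by
  classical
  have hex : ∀ u, ∃ j, u ∈ I → dco b j (v u) < 0 ∧ t u < tau b y j (v u) ∧
      ∀ i, 0 ≤ b.coord i (y + tau b y j (v u) * v u) := by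
    intro u
    by_cases hu : u ∈ I
    · obtain ⟨j, s, hs, hj, hT, hz⟩ := exit b (hin u hu) (hv0 u hu) (h0 u hu)
      refine ⟨j, fun _ => ⟨hj, ?_, ?_⟩⟩
      · have e : y + t u * v u + s * v u = y + ((t u + s : ℝ) : ℂ) * v u := by push_cast; ring
        rw [e] at hz
        rw [← tau_unique b hj hz]
        linarith
      · have e : y + t u * v u + s * v u = y + ((t u + s : ℝ) : ℂ) * v u := by push_cast; ring
        rw [e] at hz hT
        rw [← tau_unique b hj hz]
        exact hT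
    · exact ⟨0, fun h => absurd h hu⟩
  choose J hJ using hex
  have hcont : ContinuousOn J I := by
    intro u hu
    obtain ⟨hj, htj, hT⟩ := hJ u hu
    have hm : ∀ i, Continuous fun w => dco b i (v w) := fun i => (dco_continuous b i).comp hv
    have htau : ContinuousAt (fun w => tau b y (J u) (v w)) u :=
      ContinuousAt.div continuousAt_const (hm (J u)).continuousAt.neg (by
        simp only [ne_eq, neg_eq_zero]; exact hj.ne)
    have hpt : ContinuousAt (fun w => y + (tau b y (J u) (v w) : ℂ) * v w) u :=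
      continuousAt_const.add ((Complex.continuous_ofReal.continuousAt.comp htau).mul
        hv.continuousAt)
    have ev1 : ∀ᶠ w in 𝓝 u, dco b (J u) (v w) < 0 :=
      (hm (J u)).continuousAt.eventually_lt continuousAt_const hj
    have ev2 : ∀ i, i ≠ J u → ∀ᶠ w in 𝓝 u, 0 < b.coord i (y + (tau b y (J u) (v w) : ℂ) * v w) := by
      intro i hi
      have hc : ContinuousAt (fun w => b.coord i (y + (tau b y (J u) (v w) : ℂ) * v w)) u :=
        (coord_continuous b i).continuousAt.comp hpt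
      have hpos : 0 < b.coord i (y + (tau b y (J u) (v u) : ℂ) * v u) := by
        rcases (hT i).lt_or_eq with h | h
        · exact h
        · obtain ⟨l, hl⟩ := vertex_of_zero b hi h.symm (coord_tau b (y := y) hj)
          exact absurd hl (hvert u hu _ l)
      exact continuousAt_const.eventually_lt hc hpos
    have ev3 : ∀ᶠ w in 𝓝 u, ∀ i, i ≠ J u →
        0 < b.coord i (y + (tau b y (J u) (v w) : ℂ) * v w) := by
      rw [eventually_all]
      intro i
      by_cases hi : i = J u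
      · exact Eventually.of_forall fun w h => absurd hi h
      · filter_upwards [ev2 i hi] with w hw _ using hw
    rw [ContinuousWithinAt, nhds_discrete (Fin 3), tendsto_pure]
    filter_upwards [nhdsWithin_le_nhds ev1, nhdsWithin_le_nhds ev3, self_mem_nhdsWithin]
      with w hw1 hw3 hwI
    obtain ⟨kj, -, kT⟩ := hJ w hwI
    refine exit_unique b (hvert w hwI) kj hw1 kT fun i => ?_
    by_cases hi : i = J u
    · rw [hi, coord_tau b hw1]
    · exact (hw3 i hi).le
  obtain ⟨u0, hu0⟩ := hne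
  refine ⟨J u0, fun u hu => ?_⟩
  have := hI.constant hcont hu0 hu
  rw [this]
  exact hJ u hu

/-- state of the unfolding: folded base point, linear part of the folding map, exit side -/
structure St where
  y : ℂ
  L : ℂ → ℂ
  j : Fin 3

def Lin (L : ℂ → ℂ) : Prop :=
  (∀ a c, L (a + c) = L a + L c) ∧ (∀ (t : ℝ) a, L (t * a) = t * L a) ∧ ∀ a, ‖L a‖ = ‖a‖

theorem Lin.sub {L : ℂ → ℂ} (h : Lin L) (a c : ℂ) : L (a - c) = L a - L c := by
  have := h.1 (a - c) c
  rw [sub_add_cancel] at this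
  rw [this]
  ring

theorem Lin.cont {L : ℂ → ℂ} (h : Lin L) : Continuous L := by
  have : Isometry L := Isometry.of_dist_eq fun a c => by
    rw [dist_eq_norm, dist_eq_norm, ← h.sub, h.2.2]
  exact this.continuous

/-- the directions of the beam -/
noncomputable def dir (θ : ℂ) (u : ℝ) : ℂ := θ * (1 + u * Complex.I)

theorem dir_ne {θ : ℂ} (hθ : ‖θ‖ = 1) (u : ℝ) : dir θ u ≠ 0 := by
  have h1 : θ ≠ 0 := by
    intro h
    rw [h, norm_zero] at hθ
    exact zero_ne_one hθ
  refine mul_ne_zero h1 fun h => ?_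
  have := congrArg Complex.re h
  simp at this

theorem dir_cont (θ : ℂ) : Continuous (dir θ) := by
  unfold dir
  fun_prop

theorem dir_lower {θ : ℂ} (hθ : ‖θ‖ = 1) (δ a c : ℝ) :
    δ * (a + c) ≤ ‖a * dir θ δ - c * dir θ (-δ)‖ := by
  have e : a * dir θ δ - c * dir θ (-δ) = θ * (((a - c : ℝ) : ℂ) + ((δ * (a + c) : ℝ) : ℂ)
      * Complex.I) := by
    simp only [dir]
    push_cast
    ring
  rw [e, norm_mul, hθ, one_mul]
  refine le_trans ?_ (Complex.abs_im_le_norm _)
  refine le_trans (le_abs_self _) (le_of_eq ?_)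
  simp

def Good (Φ : ℂ → ℂ → ℝ) (x0 θ : ℂ) (δ : ℝ) (s : St) : Prop :=
  Lin s.L ∧
  (∀ u ∈ Icc (-δ) δ, ∀ t : ℝ, s.y + t * s.L (dir θ u) ∈ table b →
    Φ (s.y + t * s.L (dir θ u)) (s.L (dir θ u)) = Φ x0 (dir θ u)) ∧
  (∀ u ∈ Icc (-δ) δ, dco b s.j (s.L (dir θ u)) < 0 ∧ 0 < tau b s.y s.j (s.L (dir θ u)) ∧
    ∀ i, 0 ≤ b.coord i (s.y + tau b s.y s.j (s.L (dir θ u)) * s.L (dir θ u)))

theorem next {Φ : ℂ → ℂ → ℝ} {c : ℝ}
    (hE1 : ∀ (x d : ℂ) (t : ℝ), d ≠ 0 → x ∈ table b → x + t * d ∈ table b →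
      Φ (x + t * d) d = Φ x d)
    (hE2 : ∀ (i : Fin 3) (x d : ℂ), d ≠ 0 → x ∈ table b → b.coord i x = 0 →
      Φ x (reflectDir (b (i + 2) - b (i + 1)) d) = Φ x d)
    (hE3 : ∀ (l : Fin 3) (d : ℂ), d ≠ 0 → Φ (b l) d = c)
    {x0 θ : ℂ} (hθ : ‖θ‖ = 1) {δ : ℝ} (hδ : 0 < δ)
    (hne : ∀ u ∈ Icc (-δ) δ, Φ x0 (dir θ u) ≠ c) (s : St) (hs : Good b Φ x0 θ δ s) :
    ∃ s' : St, Good b Φ x0 θ δ s' ∧
      (∀ w, s'.L w = reflectDir (b (s.j + 2) - b (s.j + 1)) (s.L w)) ∧ s'.j ≠ s.j ∧
      ∀ u ∈ Icc (-δ) δ, tau b s.y s.j (s.L (dir θ u)) < tau b s'.y s'.j (s'.L (dir θ u)) := by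
  obtain ⟨hLin, hI, hC⟩ := hs
  set e : ℂ := b (s.j + 2) - b (s.j + 1) with he
  set y' : ℂ := s.y - 2 * b.coord s.j s.y * alt b s.j with hy'
  set L' : ℂ → ℂ := fun w => reflectDir e (s.L w) with hL'
  have hLin' : Lin L' := by
    refine ⟨fun a c => ?_, fun t a => ?_, fun a => ?_⟩
    · simp only [hL', hLin.1, reflectDir_add]
    · simp only [hL', hLin.2.1, reflectDir_smul]
    · simp only [hL', norm_reflectDir (edge_ne b s.j), he, hLin.2.2]
  have hd : ∀ u, s.L (dir θ u) ≠ 0 := fun u h => by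
    have := hLin.2.2 (dir θ u)
    rw [h, norm_zero] at this
    exact dir_ne hθ u (norm_eq_zero.1 this.symm)
  have hd' : ∀ u, L' (dir θ u) ≠ 0 := fun u h => by
    have := hLin'.2.2 (dir θ u)
    rw [h, norm_zero] at this
    exact dir_ne hθ u (norm_eq_zero.1 this.symm)
  have hfold : ∀ (u t : ℝ), y' + t * L' (dir θ u) = (s.y + t * s.L (dir θ u))
      - 2 * b.coord s.j (s.y + t * s.L (dir θ u)) * alt b s.j := by
    intro u t
    simp only [hL', hy', he]
    rw [reflect_formula, coord_add_smul]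
    push_cast
    ring
  have hP : ∀ u ∈ Icc (-δ) δ, y' + tau b s.y s.j (s.L (dir θ u)) * L' (dir θ u)
      = s.y + tau b s.y s.j (s.L (dir θ u)) * s.L (dir θ u) := by
    intro u hu
    rw [hfold, coord_tau b (hC u hu).1]
    push_cast
    ring
  have hI' : ∀ u ∈ Icc (-δ) δ, ∀ t : ℝ, y' + t * L' (dir θ u) ∈ table b →
      Φ (y' + t * L' (dir θ u)) (L' (dir θ u)) = Φ x0 (dir θ u) := by
    intro u hu t ht
    obtain ⟨h1, h2, h3⟩ := hC u hu
    have hPT := (mem_table b).2 h3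
    set τ := tau b s.y s.j (s.L (dir θ u)) with hτ
    have e1 : y' + t * L' (dir θ u) = (s.y + τ * s.L (dir θ u))
        + ((t - τ : ℝ) : ℂ) * L' (dir θ u) := by
      rw [← hP u hu]
      push_cast
      ring
    rw [e1, hE1 _ _ _ (hd' u) hPT (by rw [← e1]; exact ht)]
    have e2 : Φ (s.y + τ * s.L (dir θ u)) (L' (dir θ u))
        = Φ (s.y + τ * s.L (dir θ u)) (s.L (dir θ u)) :=
      hE2 s.j _ _ (hd u) hPT (coord_tau b h1)
    rw [e2]
    exact hI u hu τ hPT
  have hvert : ∀ u ∈ Icc (-δ) δ, ∀ (r : ℝ) (l : Fin 3), y' + r * L' (dir θ u) ≠ b l := by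
    intro u hu r l hrl
    have h1 := hI' u hu r (by rw [hrl]; exact mem_vertex b l)
    rw [hrl, hE3 l _ (hd' u)] at h1
    exact hne u hu h1.symm
  obtain ⟨j', hj'⟩ := step b (isPreconnected_Icc) ⟨0, by constructor <;> linarith⟩ y'
    (fun u => L' (dir θ u)) (hLin'.cont.comp (dir_cont θ)) (fun u _ => hd' u)
    (fun u => tau b s.y s.j (s.L (dir θ u)))
    (fun u hu i => by rw [hP u hu]; exact (hC u hu).2.2 i)
    (fun u hu i hi => by
      by_cases hij : i = s.j
      · rw [hij]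
        simp only [hL', he]
        rw [dco_reflect]
        linarith [(hC u hu).1]
      · exfalso
        rw [hP u hu] at hi
        obtain ⟨l, hl⟩ := vertex_of_zero b hij hi (coord_tau b (hC u hu).1)
        rw [← hP u hu] at hl
        exact hvert u hu _ l hl)
    hvert
  refine ⟨⟨y', L', j'⟩, ⟨hLin', hI', fun u hu => ⟨(hj' u hu).1, ?_, (hj' u hu).2.2⟩⟩,
    fun w => rfl, ?_, fun u hu => (hj' u hu).2.1⟩
  · exact (hC u hu).2.1.trans (hj' u hu).2.1
  · intro hjj
    have h0 : (0 : ℝ) ∈ Icc (-δ) δ := by constructor <;> linarith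
    have h1 := (hj' 0 h0).1
    change j' = s.j at hjj
    rw [hjj] at h1
    simp only [hL', he] at h1
    rw [dco_reflect] at h1
    linarith [(hC 0 h0).1]

theorem zeno {Φ : ℂ → ℂ → ℝ} {x0 θ : ℂ} (hθ : ‖θ‖ = 1) {δ : ℝ} (hδ : 0 < δ)
    (S : ℕ → St) (hG : ∀ n, Good b Φ x0 θ δ (S n))
    (hL : ∀ n w, (S (n + 1)).L w
      = reflectDir (b ((S n).j + 2) - b ((S n).j + 1)) ((S n).L w))
    (hj : ∀ n, (S (n + 1)).j ≠ (S n).j)
    (ht : ∀ n, ∀ u ∈ Icc (-δ) δ, tau b (S n).y (S n).j ((S n).L (dir θ u))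
      < tau b (S (n + 1)).y (S (n + 1)).j ((S (n + 1)).L (dir θ u))) : False := by
  obtain ⟨C, hC0, hC⟩ := exists_lip b
  obtain ⟨D, hD0, hD⟩ := exists_bound b
  obtain ⟨R, hR⟩ : ∃ R : ℝ, ∀ x ∈ table b, ∀ y ∈ table b, dist x y ≤ R := by
    have h1 : IsCompact (table b) := (Set.finite_range b).isCompact_convexHull (𝕜 := ℝ)
    exact Metric.isBounded_iff.1 h1.isBounded |>.imp fun R hR x hx y hy => hR hx hy
  set N : ℝ := ∑ i, ‖alt b i‖ with hN
  have hNi : ∀ i, ‖alt b i‖ ≤ N := fun i =>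
    Finset.single_le_sum (f := fun i => ‖alt b i‖) (fun _ _ => norm_nonneg _) (Finset.mem_univ i)
  have hN0 : 0 ≤ N := (norm_nonneg _).trans (hNi 0)
  have hδ1 : δ ∈ Icc (-δ) δ := ⟨by linarith, le_rfl⟩
  have hδ2 : -δ ∈ Icc (-δ) δ := ⟨le_rfl, by linarith⟩
  set T : ℝ → ℕ → ℝ := fun u n => tau b (S n).y (S n).j ((S n).L (dir θ u)) with hT
  have hmono : ∀ u ∈ Icc (-δ) δ, Monotone (T u) := fun u hu =>
    monotone_nat_of_le_succ fun n => (ht n u hu).le
  have hpos : ∀ u ∈ Icc (-δ) δ, ∀ n, 0 < T u n := fun u hu n => ((hG n).2.2 u hu).2.1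
  set z : ℕ → ℂ := fun n => T δ n * dir θ δ - T (-δ) n * dir θ (-δ) with hz
  have hLz : ∀ n, (S n).L (z n) = ((S n).y + T δ n * (S n).L (dir θ δ))
      - ((S n).y + T (-δ) n * (S n).L (dir θ (-δ))) := by
    intro n
    simp only [hz]
    rw [(hG n).1.sub, (hG n).1.2.1, (hG n).1.2.1]
    ring
  have hzR : ∀ n, ‖z n‖ ≤ R := by
    intro n
    rw [← (hG n).1.2.2 (z n), hLz n, ← dist_eq_norm]
    exact hR _ ((mem_table b).2 ((hG n).2.2 δ hδ1).2.2) _
      ((mem_table b).2 ((hG n).2.2 (-δ) hδ2).2.2)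
  have hzl : ∀ n, δ * (T δ n + T (-δ) n) ≤ ‖z n‖ := fun n => dir_lower hθ δ _ _
  have hb1 : ∀ n, T δ n ≤ R / δ := by
    intro n
    rw [le_div_iff₀ hδ]
    have h1 := hzl n
    have h2 := hzR n
    have h3 := mul_pos hδ (hpos (-δ) hδ2 n)
    nlinarith
  have hb2 : ∀ n, T (-δ) n ≤ R / δ := by
    intro n
    rw [le_div_iff₀ hδ]
    have h1 := hzl n
    have h2 := hzR n
    have h3 := mul_pos hδ (hpos δ hδ1 n)
    nlinarith
  have hlim1 := tendsto_atTop_ciSup (hmono δ hδ1) ⟨R / δ, by rintro _ ⟨n, rfl⟩; exact hb1 n⟩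
  have hlim2 := tendsto_atTop_ciSup (hmono (-δ) hδ2) ⟨R / δ, by rintro _ ⟨n, rfl⟩; exact hb2 n⟩
  set τ1 : ℝ := ⨆ n, T δ n with hτ1
  set τ2 : ℝ := ⨆ n, T (-δ) n with hτ2
  have hτ1' : 0 < τ1 := (hpos δ hδ1 0).trans_le
    (ge_of_tendsto hlim1 (eventually_atTop.2 ⟨0, fun n _ => hmono δ hδ1 (Nat.zero_le n)⟩))
  have hτ2' : 0 < τ2 := (hpos (-δ) hδ2 0).trans_le
    (ge_of_tendsto hlim2 (eventually_atTop.2 ⟨0, fun n _ => hmono (-δ) hδ2 (Nat.zero_le n)⟩))
  set ζ : ℂ := τ1 * dir θ δ - τ2 * dir θ (-δ) with hζ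
  have hζpos : 0 < ‖ζ‖ := lt_of_lt_of_le (mul_pos hδ (add_pos hτ1' hτ2')) (dir_lower hθ δ _ _)
  have hzlim : Tendsto z atTop (𝓝 ζ) := by
    refine Tendsto.sub ?_ ?_
    · exact ((Complex.continuous_ofReal.tendsto _).comp hlim1).mul_const _
    · exact ((Complex.continuous_ofReal.tendsto _).comp hlim2).mul_const _
  have hm : ∀ n, dco b (S n).j ((S n).L (z n)) = 0 := by
    intro n
    have e1 := coord_tau b (y := (S n).y) ((hG n).2.2 δ hδ1).1
    have e2 := coord_tau b (y := (S n).y) ((hG n).2.2 (-δ) hδ2).1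
    have e3 := coord_add b (S n).j ((S n).y + T (-δ) n * (S n).L (dir θ (-δ))) ((S n).L (z n))
    rw [hLz n] at e3 ⊢
    rw [add_sub_cancel] at e3
    change b.coord (S n).j ((S n).y + T δ n * (S n).L (dir θ δ)) = 0 at e1
    change b.coord (S n).j ((S n).y + T (-δ) n * (S n).L (dir θ (-δ))) = 0 at e2
    linarith
  have hm2 : ∀ n, |dco b (S n).j ((S n).L ζ)| ≤ C * ‖ζ - z n‖ := by
    intro n
    have e : dco b (S n).j ((S n).L ζ) = dco b (S n).j ((S n).L (ζ - z n)) := by
      have hsub := (hG n).1.sub ζ (z n)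
      rw [hsub, dco_sub, hm n, sub_zero]
    rw [e, ← (hG n).1.2.2 (ζ - z n)]
    exact hC _ _
  have key : ∀ n, ‖ζ‖ ≤ D * (C * ‖ζ - z n‖ +
      (C * ‖ζ - z (n + 1)‖ + 2 * (C * ‖ζ - z n‖) * (C * N))) := by
    intro n
    rw [← (hG n).1.2.2 ζ]
    refine (hD (S n).j (S (n + 1)).j (hj n).symm ((S n).L ζ)).trans ?_
    have e1 : (S n).L ζ = (S (n + 1)).L ζ
        + ((2 * dco b (S n).j ((S n).L ζ) : ℝ) : ℂ) * alt b (S n).j := by
      rw [hL, reflect_formula]
      push_cast
      ring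
    have e2 : |dco b (S (n + 1)).j ((S n).L ζ)| ≤ C * ‖ζ - z (n + 1)‖
        + 2 * (C * ‖ζ - z n‖) * (C * N) := by
      rw [e1, dco_add, dco_smul]
      refine (abs_add_le _ _).trans (add_le_add (hm2 (n + 1)) ?_)
      rw [abs_mul, abs_mul, abs_two]
      have e3 : |dco b (S (n + 1)).j (alt b (S n).j)| ≤ C * N :=
        (hC _ _).trans (mul_le_mul_of_nonneg_left (hNi _) hC0.le)
      gcongr
      exact hm2 n
    have e4 := hm2 n
    gcongr
  have hl0 : Tendsto (fun n => ‖ζ - z n‖) atTop (𝓝 0) := by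
    have : Tendsto (fun n => ‖ζ - z n‖) atTop (𝓝 ‖ζ - ζ‖) := (tendsto_const_nhds.sub hzlim).norm
    simpa using this
  have hl1 : Tendsto (fun n => ‖ζ - z (n + 1)‖) atTop (𝓝 0) :=
    hl0.comp (tendsto_add_atTop_nat 1)
  have hlim : Tendsto (fun n => D * (C * ‖ζ - z n‖ +
      (C * ‖ζ - z (n + 1)‖ + 2 * (C * ‖ζ - z n‖) * (C * N)))) atTop
      (𝓝 (D * (C * 0 + (C * 0 + 2 * (C * 0) * (C * N))))) :=
    ((hl0.const_mul C).add ((hl1.const_mul C).add
      (((hl0.const_mul C).const_mul 2).mul_const (C * N)))).const_mul D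
  have := ge_of_tendsto' hlim key
  simp only [mul_zero, zero_mul, add_zero] at this
  linarith

theorem beam {Φ : ℂ → ℂ → ℝ} {c : ℝ}
    (hE1 : ∀ (x d : ℂ) (t : ℝ), d ≠ 0 → x ∈ table b → x + t * d ∈ table b →
      Φ (x + t * d) d = Φ x d)
    (hE2 : ∀ (i : Fin 3) (x d : ℂ), d ≠ 0 → x ∈ table b → b.coord i x = 0 →
      Φ x (reflectDir (b (i + 2) - b (i + 1)) d) = Φ x d)
    (hE3 : ∀ (l : Fin 3) (d : ℂ), d ≠ 0 → Φ (b l) d = c)
    {x0 θ : ℂ} (hx0 : ∀ i, 0 < b.coord i x0) (hθ : ‖θ‖ = 1) {δ : ℝ} (hδ : 0 < δ)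
    (hne : ∀ u ∈ Icc (-δ) δ, Φ x0 (dir θ u) ≠ c) : False := by
  have hx0T : x0 ∈ table b := (mem_table b).2 fun i => (hx0 i).le
  have hvert : ∀ u ∈ Icc (-δ) δ, ∀ (r : ℝ) (l : Fin 3), x0 + r * dir θ u ≠ b l := by
    intro u hu r l hrl
    have h1 := hE1 x0 (dir θ u) r (dir_ne hθ u) hx0T (by rw [hrl]; exact mem_vertex b l)
    rw [hrl, hE3 l _ (dir_ne hθ u)] at h1
    exact hne u hu h1.symm
  obtain ⟨j, hj⟩ := step b (isPreconnected_Icc (a := -δ) (b := δ))
    ⟨0, by constructor <;> linarith⟩ x0 (dir θ) (dir_cont θ) (fun u _ => dir_ne hθ u)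
    (fun _ => 0) (fun u _ i => by simpa using (hx0 i).le)
    (fun u _ i hi => by
      have : b.coord i x0 = 0 := by simpa using hi
      exact absurd this (hx0 i).ne')
    hvert
  have hs0 : Good b Φ x0 θ δ ⟨x0, fun w => w, j⟩ := by
    refine ⟨⟨fun _ _ => rfl, fun _ _ => rfl, fun _ => rfl⟩, fun u _ t ht => ?_, fun u hu => hj u hu⟩
    exact hE1 x0 (dir θ u) t (dir_ne hθ u) hx0T ht
  have hn := fun s : {s : St // Good b Φ x0 θ δ s} =>
    next b hE1 hE2 hE3 hθ hδ hne s.1 s.2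
  choose g hg1 hg2 hg3 hg4 using hn
  set S : ℕ → {s : St // Good b Φ x0 θ δ s} := fun n =>
    Nat.rec ⟨⟨x0, fun w => w, j⟩, hs0⟩ (fun _ s => ⟨g s, hg1 s⟩) n with hS
  exact zeno b hθ hδ (fun n => (S n).1) (fun n => (S n).2) (fun n w => hg2 (S n) w)
    (fun n => hg3 (S n)) (fun n u hu => hg4 (S n) u hu)

/-! ### extension of the invariance to the closed triangle -/

section ext

variable {f : ℂ → ℂ → ℝ}
  (hf : ContinuousOn (fun z : ℂ × ℂ => f z.1 z.2) (table b ×ˢ Metric.sphere 0 1))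

include hf in
theorem lim_of {x θ : ℂ} (hx : x ∈ table b) (hθ : ‖θ‖ = 1) {g : ℝ → ℂ}
    (hg : Tendsto g (𝓝[>] 0) (𝓝 x)) (hgT : ∀ᶠ r : ℝ in 𝓝[>] (0 : ℝ), g r ∈ table b) :
    Tendsto (fun r => f (g r) θ) (𝓝[>] 0) (𝓝 (f x θ)) := by
  have h1 : ContinuousWithinAt (fun z : ℂ × ℂ => f z.1 z.2) (table b ×ˢ Metric.sphere 0 1) (x, θ) :=
    hf (x, θ) ⟨hx, by simpa using hθ⟩
  have h2 : Tendsto (fun r => (g r, θ)) (𝓝[>] 0) (𝓝[table b ×ˢ Metric.sphere 0 1] (x, θ)) := by
    rw [tendsto_nhdsWithin_iff]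
    refine ⟨hg.prodMk_nhds tendsto_const_nhds, ?_⟩
    filter_upwards [hgT] with r hr using ⟨hr, by simpa using hθ⟩
  exact h1.tendsto.comp h2

theorem tendsto_ray (x w : ℂ) : Tendsto (fun r : ℝ => x + r * w) (𝓝[>] 0) (𝓝 x) := by
  have h : Continuous fun r : ℝ => x + r * w := by fun_prop
  have := (h.tendsto 0).mono_left (nhdsWithin_le_nhds (s := Ioi 0))
  simpa using this

theorem ev_pos {i : Fin 3} {x w : ℂ} (h : 0 < b.coord i x ∨ (b.coord i x = 0 ∧ 0 < dco b i w)) :
    ∀ᶠ r : ℝ in 𝓝[>] (0 : ℝ), 0 < b.coord i (x + r * w) := by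
  rcases h with h | ⟨h1, h2⟩
  · have h3 : Tendsto (fun r : ℝ => b.coord i (x + r * w)) (𝓝[>] 0) (𝓝 (b.coord i x)) :=
      ((coord_continuous b i).tendsto x).comp (tendsto_ray x w)
    exact h3.eventually_const_lt h
  · filter_upwards [self_mem_nhdsWithin] with r hr
    rw [coord_add_smul, h1, zero_add]
    exact mul_pos hr h2

variable (hinv : ∀ (t : ℝ) (x θ y φ : ℂ), Flow b t x θ y φ → f y φ = f x θ)

include hinv in
theorem free_int {x θ : ℂ} (hθ : ‖θ‖ = 1) (t : ℝ) (hx : ∀ i, 0 < b.coord i x)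
    (hy : ∀ i, 0 < b.coord i (x + t * θ)) : f (x + t * θ) θ = f x θ := by
  rcases le_total 0 t with h | h
  · exact hinv t x θ _ θ (Flow.free t x θ hθ h ((mem_int b).2 hx) ((mem_int b).2 hy))
  · have e : x + t * θ + ((-t : ℝ) : ℂ) * θ = x := by push_cast; ring
    have := hinv (-t) (x + t * θ) θ _ θ (Flow.free (-t) (x + t * θ) θ hθ (by linarith)
      ((mem_int b).2 hy) (by rw [e]; exact (mem_int b).2 hx))
    rw [e] at this
    exact this.symm

include hf hinv in
theorem free_closed {x θ : ℂ} (hθ : ‖θ‖ = 1) (t : ℝ) (hx : x ∈ table b)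
    (hy : x + t * θ ∈ table b) : f (x + t * θ) θ = f x θ := by
  obtain ⟨o, ho⟩ : ∃ o, ∀ i, 0 < b.coord i o := by
    have := b.centroid_mem_interior_convexHull
    exact ⟨_, (mem_int b).1 this⟩
  have hx' := (mem_table b).1 hx
  have hy' := (mem_table b).1 hy
  have hpos : ∀ z, (∀ i, 0 ≤ b.coord i z) → ∀ᶠ r : ℝ in 𝓝[>] (0 : ℝ),
      ∀ i, 0 < b.coord i (z + r * (o - z)) := by
    intro z hz
    rw [eventually_all]
    intro i
    apply ev_pos
    rcases (hz i).lt_or_eq with h | h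
    · exact Or.inl h
    · refine Or.inr ⟨h.symm, ?_⟩
      have e := coord_add b i z (o - z)
      rw [add_sub_cancel] at e
      have := ho i
      linarith
  have e1 := hpos x hx'
  have e2 := hpos _ hy'
  have l1 := lim_of b hf hx hθ (tendsto_ray x (o - x))
    (e1.mono fun r hr => (mem_table b).2 fun i => (hr i).le)
  have l2 := lim_of b hf hy hθ (tendsto_ray (x + t * θ) (o - (x + t * θ)))
    (e2.mono fun r hr => (mem_table b).2 fun i => (hr i).le)
  refine tendsto_nhds_unique_of_eventuallyEq l2 l1 ?_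
  filter_upwards [e1, e2] with r hr1 hr2
  have e3 : x + t * θ + r * (o - (x + t * θ)) = x + r * (o - x) + (((1 - r) * t : ℝ) : ℂ) * θ := by
    push_cast
    ring
  rw [e3] at hr2 ⊢
  exact free_int b hinv hθ _ hr1 hr2

theorem mem_side {i : Fin 3} {x : ℂ} (h0 : b.coord i x = 0) (h1 : 0 < b.coord (i + 1) x)
    (h2 : 0 < b.coord (i + 2) x) : x ∈ openSegment ℝ (b (i + 1)) (b (i + 2)) := by
  have hs := sum_coord b x
  have he := eq_coord b x
  refine ⟨b.coord (i + 1) x, b.coord (i + 2) x, h1, h2, ?_, ?_⟩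
  · match i with
    | 0 => change b.coord 1 x + b.coord 2 x = 1; linarith
    | 1 => change b.coord 2 x + b.coord 0 x = 1; linarith
    | 2 => change b.coord 0 x + b.coord 1 x = 1; linarith
  · have h0' : (b.coord i x : ℂ) = 0 := by exact_mod_cast h0
    rw [Complex.real_smul, Complex.real_smul]
    match i with
    | 0 =>
      change (b.coord 1 x : ℂ) * b 1 + b.coord 2 x * b 2 = x
      linear_combination - he - b 0 * h0'
    | 1 =>
      change (b.coord 2 x : ℂ) * b 2 + b.coord 0 x * b 0 = x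
      linear_combination - he - b 1 * h0'
    | 2 =>
      change (b.coord 0 x : ℂ) * b 0 + b.coord 1 x * b 1 = x
      linear_combination - he - b 2 * h0'

theorem fin3_cases (i k : Fin 3) : k = i ∨ k = i + 1 ∨ k = i + 2 := by
  revert i k
  decide

theorem reflect_reflect (i : Fin 3) (w : ℂ) :
    reflectDir (b (i + 2) - b (i + 1)) (reflectDir (b (i + 2) - b (i + 1)) w) = w := by
  have h1 := reflect_formula b i w
  have h2 := reflect_formula b i (reflectDir (b (i + 2) - b (i + 1)) w)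
  rw [dco_reflect] at h2
  rw [h2]
  nth_rewrite 1 [h1]
  push_cast
  ring

include hf hinv in
theorem bounce_out {i : Fin 3} {x θ : ℂ} (hθ : ‖θ‖ = 1) (h0 : b.coord i x = 0)
    (h1 : 0 < b.coord (i + 1) x) (h2 : 0 < b.coord (i + 2) x) (hm : dco b i θ < 0) :
    f x (reflectDir (b (i + 2) - b (i + 1)) θ) = f x θ := by
  set φ := reflectDir (b (i + 2) - b (i + 1)) θ with hφ
  have hφn : ‖φ‖ = 1 := by rw [hφ, norm_reflectDir (edge_ne b i), hθ]
  have hmφ : 0 < dco b i φ := by rw [hφ, dco_reflect]; linarith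
  have hxT : x ∈ table b := (mem_table b).2 fun k => by
    rcases fin3_cases i k with h | h | h <;> rw [h]
    · exact h0.ge
    · exact h1.le
    · exact h2.le
  have hev : ∀ w, 0 < dco b i w → ∀ᶠ r : ℝ in 𝓝[>] (0 : ℝ), ∀ k, 0 < b.coord k (x + r * w) := by
    intro w hw
    rw [eventually_all]
    intro k
    apply ev_pos
    rcases fin3_cases i k with h | h | h <;> rw [h]
    · exact Or.inr ⟨h0, hw⟩
    · exact Or.inl h1
    · exact Or.inl h2
  have hmn : 0 < dco b i (-θ) := by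
    have := dco_smul b i (-1) θ
    have e : (((-1 : ℝ) : ℂ) * θ) = -θ := by push_cast; ring
    rw [e] at this
    rw [this]
    linarith
  have e1 := hev φ hmφ
  have e2 := hev (-θ) hmn
  have l1 := lim_of b hf hxT hφn (tendsto_ray x φ)
    (e1.mono fun r hr => (mem_table b).2 fun i => (hr i).le)
  have l2 := lim_of b hf hxT hθ (tendsto_ray x (-θ))
    (e2.mono fun r hr => (mem_table b).2 fun i => (hr i).le)
  refine tendsto_nhds_unique_of_eventuallyEq l1 l2 ?_
  filter_upwards [e1, e2, self_mem_nhdsWithin] with r hr1 hr2 hr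
  have hr0 : (0 : ℝ) < r := hr
  have e3 : x + r * -θ + r * θ = x := by ring
  have := hinv (r + r) (x + r * -θ) θ _ _ (Flow.bounce i r r (x + r * -θ) θ hθ hr0 hr0
    ((mem_int b).2 hr2) (by rw [e3]; exact mem_side b h0 h1 h2)
    (by rw [e3]; exact (mem_int b).2 hr1))
  rw [e3] at this
  exact this

include hf hinv in
theorem bounce_open {i : Fin 3} {x θ : ℂ} (hθ : ‖θ‖ = 1) (h0 : b.coord i x = 0)
    (h1 : 0 < b.coord (i + 1) x) (h2 : 0 < b.coord (i + 2) x) :
    f x (reflectDir (b (i + 2) - b (i + 1)) θ) = f x θ := by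
  rcases lt_trichotomy (dco b i θ) 0 with hm | hm | hm
  · exact bounce_out b hf hinv hθ h0 h1 h2 hm
  · rw [reflect_formula, hm]
    simp
  · have := bounce_out b hf hinv (θ := reflectDir (b (i + 2) - b (i + 1)) θ)
      (by rw [norm_reflectDir (edge_ne b i), hθ]) h0 h1 h2 (by rw [dco_reflect]; linarith)
    rw [reflect_reflect] at this
    exact this.symm

include hf hinv in
theorem bounce_closed {i : Fin 3} {x θ : ℂ} (hθ : ‖θ‖ = 1) (hx : x ∈ table b)
    (h0 : b.coord i x = 0) :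
    f x (reflectDir (b (i + 2) - b (i + 1)) θ) = f x θ := by
  set o : ℂ := (b (i + 1) + b (i + 2)) / 2 with ho
  have hx' := (mem_table b).1 hx
  have hφn : ‖reflectDir (b (i + 2) - b (i + 1)) θ‖ = 1 := by
    rw [norm_reflectDir (edge_ne b i), hθ]
  have ho' : ∀ k, b.coord k o = (b.coord k (b (i + 1)) + b.coord k (b (i + 2))) / 2 := by
    intro k
    have e1 := coord_add_smul b k (b (i + 1)) (b (i + 2) - b (i + 1)) (1 / 2)
    have e2 : b (i + 1) + ((1 / 2 : ℝ) : ℂ) * (b (i + 2) - b (i + 1)) = o := by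
      rw [ho]
      push_cast
      ring
    have e3 := coord_add b k (b (i + 1)) (b (i + 2) - b (i + 1))
    rw [add_sub_cancel] at e3
    rw [e2] at e1
    linarith
  have h3 : ∀ i : Fin 3, i ≠ i + 1 ∧ i ≠ i + 2 ∧ i + 1 ≠ i + 2 ∧ i + 2 ≠ i + 1 := by decide
  obtain ⟨n1, n2, n3, n4⟩ := h3 i
  have o0 : b.coord i o = 0 := by
    rw [ho', coord_vertex, coord_vertex, if_neg n1, if_neg n2]; norm_num
  have o1 : 0 < b.coord (i + 1) o := by
    rw [ho', coord_vertex, coord_vertex, if_pos rfl, if_neg n3]; norm_num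
  have o2 : 0 < b.coord (i + 2) o := by
    rw [ho', coord_vertex, coord_vertex, if_neg n4, if_pos rfl]; norm_num
  have hd : ∀ k, dco b k (o - x) = b.coord k o - b.coord k x := by
    intro k
    have e := coord_add b k x (o - x)
    rw [add_sub_cancel] at e
    linarith
  have hz : ∀ r : ℝ, b.coord i (x + r * (o - x)) = 0 := by
    intro r
    rw [coord_add_smul, hd, h0, o0]
    ring
  have hp : ∀ k, 0 < b.coord k o → ∀ᶠ r : ℝ in 𝓝[>] (0 : ℝ), 0 < b.coord k (x + r * (o - x)) := by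
    intro k hk
    apply ev_pos
    rcases (hx' k).lt_or_eq with h | h
    · exact Or.inl h
    · exact Or.inr ⟨h.symm, by rw [hd, ← h]; linarith⟩
  have e1 := hp _ o1
  have e2 := hp _ o2
  have hT : ∀ᶠ r : ℝ in 𝓝[>] (0 : ℝ), x + r * (o - x) ∈ table b := by
    filter_upwards [e1, e2] with r hr1 hr2
    refine (mem_table b).2 fun k => ?_
    rcases fin3_cases i k with h | h | h <;> rw [h]
    · exact (hz r).ge
    · exact hr1.le
    · exact hr2.le
  refine tendsto_nhds_unique_of_eventuallyEq (lim_of b hf hx hφn (tendsto_ray x (o - x)) hT)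
    (lim_of b hf hx hθ (tendsto_ray x (o - x)) hT) ?_
  filter_upwards [e1, e2] with r hr1 hr2
  exact bounce_open b hf hinv hθ (hz r) hr1 hr2

end ext

end bary

theorem const_of_periods {h : ℝ → ℝ} (hc : Continuous h) {a : ℝ}
    (h1 : ∀ s, h (s + 2 * Real.pi) = h s) (h2 : ∀ s, h (s + 2 * a) = h s)
    (hirr : Irrational (a / Real.pi)) (s : ℝ) : h s = h 0 := by
  let G : AddSubgroup ℝ :=
    { carrier := {t | ∀ s, h (s + t) = h s}
      add_mem' := fun {x y} hx hy s => by rw [← add_assoc, hy, hx]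
      zero_mem' := fun s => by rw [add_zero]
      neg_mem' := fun {x} hx s => by
        have := hx (s + -x)
        rw [neg_add_cancel_right] at this
        exact this.symm }
  have hle : AddSubgroup.closure {2 * a, 2 * Real.pi} ≤ G := by
    rw [AddSubgroup.closure_le]
    rintro t (rfl | rfl)
    · exact h2
    · exact h1
  have hirr2 : Irrational (2 * a / (2 * Real.pi)) := by
    rwa [mul_div_mul_left _ _ (two_ne_zero)]
  have hd := dense_addSubgroupClosure_pair_iff.2 hirr2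
  have hcl : IsClosed {t : ℝ | h (0 + t) = h 0} :=
    isClosed_eq (hc.comp (continuous_const.add continuous_id)) continuous_const
  have hsub : (AddSubgroup.closure {2 * a, 2 * Real.pi} : Set ℝ) ⊆ {t : ℝ | h (0 + t) = h 0} :=
    fun t ht => hle ht 0
  have : s ∈ {t : ℝ | h (0 + t) = h 0} := by
    have h3 := closure_minimal hsub hcl
    rw [hd.closure_eq] at h3
    exact h3 (mem_univ s)
  simpa using this

/-! ### the vertices -/

section vert

variable (b : AffineBasis (Fin 3) ℝ ℂ)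

theorem rot_of_reflect {d1 d2 : ℂ} (h1 : d1 ≠ 0) (h2 : d2 ≠ 0) (θ : ℂ) :
    reflectDir (-d2) (reflectDir d1 θ)
      = Complex.exp (((2 * (-(d1 / d2).arg) : ℝ) : ℂ) * Complex.I) * θ := by
  have hr : d1 / d2 ≠ 0 := div_ne_zero h1 h2
  have e1 : reflectDir (-d2) (reflectDir d1 θ) = (starRingEnd ℂ) (d1 / d2) / (d1 / d2) * θ := by
    have c1 : (starRingEnd ℂ) d1 ≠ 0 := by simpa using h1
    have c2 : (starRingEnd ℂ) d2 ≠ 0 := by simpa using h2
    simp only [reflectDir, map_mul, map_div₀, map_neg, Complex.conj_conj]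
    field_simp
  have hn : ((‖d1 / d2‖ : ℝ) : ℂ) ≠ 0 := by
    rw [Ne, Complex.ofReal_eq_zero]
    exact norm_ne_zero_iff.2 hr
  have e2 : d1 / d2 = ‖d1 / d2‖ * Complex.exp ((d1 / d2).arg * Complex.I) :=
    (Complex.norm_mul_exp_arg_mul_I _).symm
  have e3 : (starRingEnd ℂ) (d1 / d2)
      = ‖d1 / d2‖ * Complex.exp (-((d1 / d2).arg * Complex.I)) := by
    conv_lhs => rw [e2]
    rw [map_mul, Complex.conj_ofReal, ← Complex.exp_conj, map_mul, Complex.conj_ofReal,
      Complex.conj_I, mul_neg]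
  rw [e1]
  congr 1
  rw [div_eq_iff hr, e3]
  have e4 : Complex.exp (((2 * (-(d1 / d2).arg) : ℝ) : ℂ) * Complex.I)
      * Complex.exp ((d1 / d2).arg * Complex.I)
      = Complex.exp (-((d1 / d2).arg * Complex.I)) := by
    rw [← Complex.exp_add]
    congr 1
    push_cast
    ring
  calc (‖d1 / d2‖ : ℂ) * Complex.exp (-((d1 / d2).arg * Complex.I))
      = Complex.exp (((2 * (-(d1 / d2).arg) : ℝ) : ℂ) * Complex.I)
        * (‖d1 / d2‖ * Complex.exp ((d1 / d2).arg * Complex.I)) := by rw [← e4]; ring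
    _ = _ := by rw [Complex.norm_mul_exp_arg_mul_I]

end vert

/-- Let `p 0, p 1, p 2` be the vertices of a nondegenerate triangle all of whose angles are
irrational multiples of pi.  Then every continuous real function on (closed triangle) x (circle of
directions) which is invariant under the billiard flow is constant. -/
theorem main (p : Fin 3 → ℂ) (hp : AffineIndependent ℝ p)
    (hirr : ∀ i, Irrational (EuclideanGeometry.angle (p (i + 1)) (p i) (p (i + 2)) / Real.pi))
    (f : ℂ → ℂ → ℝ)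
    (hf : ContinuousOn (fun z : ℂ × ℂ => f z.1 z.2) (table p ×ˢ Metric.sphere 0 1))
    (hinv : ∀ (t : ℝ) (x θ y φ : ℂ), Flow p t x θ y φ → f y φ = f x θ) :
    ∃ c : ℝ, ∀ x ∈ table p, ∀ θ : ℂ, ‖θ‖ = 1 → f x θ = c := by
  have htop : affineSpan ℝ (Set.range p) = ⊤ := by
    rw [hp.affineSpan_eq_top_iff_card_eq_finrank_add_one, Complex.finrank_real_complex]
    rfl
  set b : AffineBasis (Fin 3) ℝ ℂ := ⟨p, hp, htop⟩ with hb
  have hbp : ∀ i, b i = p i := fun i => rfl
  have hfr : ∀ (x θ : ℂ) (t : ℝ), ‖θ‖ = 1 → x ∈ table p → x + t * θ ∈ table p →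
      f (x + t * θ) θ = f x θ := fun x θ t hθ hx hy => free_closed b hf hinv hθ t hx hy
  have hbo : ∀ (i : Fin 3) (x θ : ℂ), ‖θ‖ = 1 → x ∈ table p → b.coord i x = 0 →
      f x (reflectDir (p (i + 2) - p (i + 1)) θ) = f x θ := fun i x θ hθ hx h0 =>
    bounce_closed b hf hinv hθ hx h0
  have hv : ∀ i, p i ∈ table p := fun i => mem_vertex b i
  have hinj : ∀ i j, i ≠ j → p i ≠ p j := fun i j hij h => hij (hp.injective h)
  -- constant at each vertex
  have hvc : ∀ (i : Fin 3) (θ : ℂ), ‖θ‖ = 1 → f (p i) θ = f (p i) 1 := by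
    intro i
    have h3 : ∀ i : Fin 3, i + 1 + 2 = i ∧ i + 1 + 1 = i + 2 ∧ i + 2 + 2 = i + 1 ∧ i + 2 + 1 = i ∧
        i + 1 ≠ i ∧ i + 2 ≠ i := by decide
    obtain ⟨n1, n2, n3, n4, n5, n6⟩ := h3 i
    have c1 : b.coord (i + 1) (p i) = 0 := by
      rw [← hbp, coord_vertex, if_neg n5]
    have c2 : b.coord (i + 2) (p i) = 0 := by
      rw [← hbp, coord_vertex, if_neg n6]
    have d1 : p (i + 1) - p i ≠ 0 := sub_ne_zero.2 (hinj _ _ n5)
    have d2 : p (i + 2) - p i ≠ 0 := sub_ne_zero.2 (hinj _ _ n6)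
    set r : ℂ := (p (i + 1) - p i) / (p (i + 2) - p i) with hr
    have hang : EuclideanGeometry.angle (p (i + 1)) (p i) (p (i + 2)) = |r.arg| := by
      rw [EuclideanGeometry.angle, vsub_eq_sub, vsub_eq_sub, Complex.angle_eq_abs_arg d1 d2]
    have hirr' : Irrational (-r.arg / Real.pi) := by
      have h4 := hirr i
      rw [hang] at h4
      rcases abs_choice r.arg with h5 | h5
      · rw [h5] at h4
        rw [neg_div]
        exact h4.neg
      · rw [h5] at h4
        exact h4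
    have hstep : ∀ θ : ℂ, ‖θ‖ = 1 →
        f (p i) (Complex.exp (((2 * (-r.arg) : ℝ) : ℂ) * Complex.I) * θ) = f (p i) θ := by
      intro θ hθ
      have g1 := hbo (i + 2) (p i) θ hθ (hv i) c2
      rw [n3, n4] at g1
      have g2 := hbo (i + 1) (p i) (reflectDir (p (i + 1) - p i) θ)
        (by rw [norm_reflectDir d1, hθ]) (hv i) c1
      rw [n1, n2, g1] at g2
      rw [← g2, ← rot_of_reflect d1 d2, neg_sub]
    have hcont : Continuous fun s : ℝ => f (p i) (Complex.exp (s * Complex.I)) := by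
      have : Continuous fun s : ℝ => ((p i, Complex.exp (s * Complex.I)) : ℂ × ℂ) := by fun_prop
      refine hf.comp_continuous this fun s => ⟨hv i, ?_⟩
      simp [Complex.norm_exp_ofReal_mul_I]
    have hper := const_of_periods hcont (a := -r.arg) (fun s => by
      congr 1
      push_cast
      rw [add_mul, Complex.exp_add, Complex.exp_two_pi_mul_I, mul_one]) (fun s => by
      have := hstep (Complex.exp (s * Complex.I)) (Complex.norm_exp_ofReal_mul_I s)
      rw [← this, ← Complex.exp_add]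
      congr 2
      push_cast
      ring) hirr'
    intro θ hθ
    have h6 : Complex.exp (θ.arg * Complex.I) = θ := by
      have := Complex.norm_mul_exp_arg_mul_I θ
      rw [hθ] at this
      simpa using this
    have h7 := hper θ.arg
    simp only [h6] at h7
    rw [h7]
    simp
  set c : ℝ := f (p 0) 1 with hc
  have hvv : ∀ i j, f (p i) 1 = f (p j) 1 := by
    intro i j
    by_cases hij : i = j
    · rw [hij]
    have hn : ‖p j - p i‖ ≠ 0 := norm_ne_zero_iff.2 (sub_ne_zero.2 (hinj j i (Ne.symm hij)))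
    have hn' : ((‖p j - p i‖ : ℝ) : ℂ) ≠ 0 := by exact_mod_cast hn
    set θ : ℂ := (p j - p i) / ‖p j - p i‖ with hθ
    have hθ1 : ‖θ‖ = 1 := by
      rw [hθ, norm_div, Complex.norm_real, norm_norm, div_self hn]
    have e : p i + ((‖p j - p i‖ : ℝ) : ℂ) * θ = p j := by
      rw [hθ]
      field_simp
      ring
    have h1 := hfr (p i) θ ‖p j - p i‖ hθ1 (hv i) (by rw [e]; exact hv j)
    rw [e] at h1
    rw [← hvc i θ hθ1, ← hvc j θ hθ1, h1]
  have hvert : ∀ (i : Fin 3) (θ : ℂ), ‖θ‖ = 1 → f (p i) θ = c := fun i θ hθ =>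
    (hvc i θ hθ).trans (hvv i 0)
  refine ⟨c, ?_⟩
  -- homogeneous extension in the direction
  set Φ : ℂ → ℂ → ℝ := fun x d => f x (d / ‖d‖) with hΦ
  have hunit : ∀ d : ℂ, d ≠ 0 → ‖d / (‖d‖ : ℂ)‖ = 1 := by
    intro d hd
    rw [norm_div, Complex.norm_real, norm_norm, div_self (norm_ne_zero_iff.2 hd)]
  have hE1 : ∀ (x d : ℂ) (t : ℝ), d ≠ 0 → x ∈ table b → x + t * d ∈ table b →
      Φ (x + t * d) d = Φ x d := by
    intro x d t hd hx hy
    have hn : ((‖d‖ : ℝ) : ℂ) ≠ 0 := by exact_mod_cast norm_ne_zero_iff.2 hd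
    have e : x + t * d = x + ((t * ‖d‖ : ℝ) : ℂ) * (d / ‖d‖) := by
      push_cast
      field_simp
    simp only [hΦ]
    rw [e] at hy ⊢
    exact hfr x _ _ (hunit d hd) hx hy
  have hE2 : ∀ (i : Fin 3) (x d : ℂ), d ≠ 0 → x ∈ table b → b.coord i x = 0 →
      Φ x (reflectDir (b (i + 2) - b (i + 1)) d) = Φ x d := by
    intro i x d hd hx h0
    simp only [hΦ]
    have e : reflectDir (b (i + 2) - b (i + 1)) d / ‖reflectDir (b (i + 2) - b (i + 1)) d‖
        = reflectDir (b (i + 2) - b (i + 1)) (d / ‖d‖) := by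
      rw [norm_reflectDir (edge_ne b i)]
      have : d / (‖d‖ : ℂ) = ((‖d‖⁻¹ : ℝ) : ℂ) * d := by push_cast; ring
      rw [this, reflectDir_smul]
      push_cast
      ring
    rw [e]
    exact hbo i x _ (hunit d hd) hx h0
  have hE3 : ∀ (l : Fin 3) (d : ℂ), d ≠ 0 → Φ (b l) d = c := fun l d hd =>
    hvert l _ (hunit d hd)
  have hint : ∀ x0, (∀ i, 0 < b.coord i x0) → ∀ θ : ℂ, ‖θ‖ = 1 → f x0 θ = c := by
    intro x0 hx0 θ hθ
    by_contra hne
    have hx0T : x0 ∈ table p := (mem_table b).2 fun i => (hx0 i).le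
    have hcont : Continuous fun u : ℝ => Φ x0 (dir θ u) := by
      have h1 : Continuous fun u : ℝ => ((x0, dir θ u / ‖dir θ u‖) : ℂ × ℂ) := by
        refine continuous_const.prodMk ((dir_cont θ).div
          (Complex.continuous_ofReal.comp (dir_cont θ).norm) fun u => ?_)
        exact_mod_cast norm_ne_zero_iff.2 (dir_ne hθ u)
      refine hf.comp_continuous h1 fun u => ⟨hx0T, ?_⟩
      rw [mem_sphere_zero_iff_norm]
      exact hunit _ (dir_ne hθ u)
    have h0 : Φ x0 (dir θ 0) ≠ c := by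
      have : dir θ 0 = θ := by simp [dir]
      rw [this]
      simp only [hΦ]
      rw [hθ]
      simpa using hne
    have hev : ∀ᶠ u in 𝓝 (0 : ℝ), Φ x0 (dir θ u) ≠ c := hcont.continuousAt.eventually_ne h0
    obtain ⟨δ, hδ, hball⟩ := Metric.eventually_nhds_iff.1 hev
    refine beam b hE1 hE2 hE3 hx0 hθ (δ := δ / 2) (by linarith) fun u hu => hball ?_
    rw [dist_zero_right, Real.norm_eq_abs]
    have := abs_le.2 hu
    linarith
  intro x hx θ hθ
  obtain ⟨o, ho⟩ : ∃ o, ∀ i, 0 < b.coord i o :=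
    ⟨_, (mem_int b).1 b.centroid_mem_interior_convexHull⟩
  have hx' := (mem_table b).1 (show x ∈ table b from hx)
  have hev : ∀ᶠ r : ℝ in 𝓝[>] (0 : ℝ), ∀ i, 0 < b.coord i (x + r * (o - x)) := by
    rw [eventually_all]
    intro i
    apply ev_pos
    rcases (hx' i).lt_or_eq with h | h
    · exact Or.inl h
    · refine Or.inr ⟨h.symm, ?_⟩
      have e := coord_add b i x (o - x)
      rw [add_sub_cancel] at e
      have := ho i
      linarith
  refine tendsto_nhds_unique_of_eventuallyEq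
    (lim_of b hf hx hθ (tendsto_ray x (o - x))
      (hev.mono fun r hr => (mem_table b).2 fun i => (hr i).le)) tendsto_const_nhds ?_
  filter_upwards [hev] with r hr
  exact hint _ hr θ hθ

end Vale.Agent.P099

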