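import Mathlib

/-!
P099: the billiard flow in a triangle (definitions).
-/

open Set Topology Filter

namespace Vale.Agent.P099

/-- Mirror image of the direction `θ` in the line spanned by `e`: the component along `e` is kept,
the normal component is reversed. -/
noncomputable def reflectDir (e θ : ℂ) : ℂ := e / (starRingEnd ℂ) e * (starRingEnd ℂ) θ

/-- The closed triangle with vertices `p 0, p 1, p 2`. -/
def table (p : Fin 3 → ℂ) : Set ℂ := convexHull ℝ (Set.range p)

/-- `Flow p t x θ y φ`: the billiard flow at time `t` carries `(x, θ)` to `(y, φ)`. -/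
inductive Flow (p : Fin 3 → ℂ) : ℝ → ℂ → ℂ → ℂ → ℂ → Prop
  | free (t : ℝ) (x θ : ℂ) : ‖θ‖ = 1 → 0 ≤ t → x ∈ interior (table p) →
      x + t * θ ∈ interior (table p) → Flow p t x θ (x + t * θ) θ
  | bounce (i : Fin 3) (s t : ℝ) (x θ : ℂ) : ‖θ‖ = 1 → 0 < s → 0 < t → x ∈ interior (table p) →
      x + s * θ ∈ openSegment ℝ (p (i + 1)) (p (i + 2)) →
      x + s * θ + t * reflectDir (p (i + 2) - p (i + 1)) θ ∈ interior (table p) →
      Flow p (s + t) x θ (x + s * θ + t * reflectDir (p (i + 2) - p (i + 1)) θ)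
        (reflectDir (p (i + 2) - p (i + 1)) θ)
  | trans (s t : ℝ) (x θ y φ z ψ : ℂ) : Flow p s x θ y φ → Flow p t y φ z ψ →
      Flow p (s + t) x θ z ψ

end Vale.Agent.P099
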