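import Vale.Agent.Lib.P099.Core

/-!
P099: in a triangle all of whose angles are irrational multiples of pi, every first integral of the
billiard flow which is continuous on (open triangle) x (circle of directions) is constant.
-/

open Set Topology Filter

namespace Vale.Agent.P099

/-- angular coordinate of the `n`-th sector folded back to the sector `(0, α)` -/
noncomputable def psi (α : ℝ) (n : ℕ) (φ : ℝ) : ℝ :=
  if Even n then φ - n * α else (n + 1) * α - φ

/-- Local description of the triangle near the vertex `v`: sector of angle `α`, unit vectors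
`E ψ`, the side `i1` at angle `α` and the side `i2` at angle `0`. -/
structure Sector (b : AffineBasis (Fin 3) ℝ ℂ) (v : ℂ) (α r0 : ℝ) (E : ℝ → ℂ)
    (i1 i2 : Fin 3) : Prop where
  pos : 0 < α
  lt : α < Real.pi
  r0_pos : 0 < r0
  cont : Continuous E
  ne : ∀ ψ, E ψ ≠ 0
  add : ∀ c t : ℝ, E (c + t) = Real.cos t * E c + Real.sin t * E (c + Real.pi / 2)
  inT : ∀ ρ ψ : ℝ, 0 < ρ → ρ < r0 → 0 < ψ → ψ < α → ∀ i, 0 < b.coord i (v + ρ * E ψ)
  side1 : ∀ ρ : ℝ, 0 < ρ → ρ < r0 → v + ρ * E α ∈ openSegment ℝ (b (i1 + 1)) (b (i1 + 2))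
  side2 : ∀ ρ : ℝ, 0 < ρ → ρ < r0 → v + ρ * E 0 ∈ openSegment ℝ (b (i2 + 1)) (b (i2 + 2))
  refl1 : ∀ ψ, reflectDir (b (i1 + 2) - b (i1 + 1)) (E ψ) = E (2 * α - ψ)
  refl2 : ∀ ψ, reflectDir (b (i2 + 2) - b (i2 + 1)) (E ψ) = E (-ψ)

/-- the invariance properties of a first integral, homogeneous in the direction -/
structure Inv (b : AffineBasis (Fin 3) ℝ ℂ) (Φ : ℂ → ℂ → ℝ) : Prop where
  free : ∀ (x d : ℂ) (t : ℝ), d ≠ 0 → (∀ i, 0 < b.coord i x) → (∀ i, 0 < b.coord i (x + t * d)) →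
    Φ (x + t * d) d = Φ x d
  bounce : ∀ (i : Fin 3) (x d : ℂ) (s t : ℝ), d ≠ 0 → 0 < s → 0 < t → (∀ k, 0 < b.coord k x) →
    x + s * d ∈ openSegment ℝ (b (i + 1)) (b (i + 2)) →
    (∀ k, 0 < b.coord k (x + s * d + t * reflectDir (b (i + 2) - b (i + 1)) d)) →
    Φ (x + s * d + t * reflectDir (b (i + 2) - b (i + 1)) d)
      (reflectDir (b (i + 2) - b (i + 1)) d) = Φ x d
  cont : ContinuousOn (fun z : ℂ × ℂ => Φ z.1 z.2) ({x | ∀ i, 0 < b.coord i x} ×ˢ {d | d ≠ 0})
  hom : ∀ (x d : ℂ) (r : ℝ), 0 < r → Φ x (r * d) = Φ x d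

section fan

variable {b : AffineBasis (Fin 3) ℝ ℂ} {v : ℂ} {α r0 : ℝ} {E : ℝ → ℂ} {i1 i2 : Fin 3}

theorem Sector.add_pi (h : Sector b v α r0 E i1 i2) (c : ℝ) : E (c + Real.pi) = - E c := by
  rw [h.add, Real.cos_pi, Real.sin_pi]
  push_cast
  ring

theorem Sector.sub_pi (h : Sector b v α r0 E i1 i2) (c : ℝ) : E (c - Real.pi) = - E c := by
  have := h.add_pi (c - Real.pi)
  rw [sub_add_cancel] at this
  rw [this, neg_neg]

/-- motion along a chord -/
theorem Sector.chord (h : Sector b v α r0 E i1 i2) {ε a a' : ℝ} (ha : Real.sin a ≠ 0)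
    (ha' : Real.sin a' ≠ 0) (c : ℝ) :
    ((ε / Real.sin a' : ℝ) : ℂ) * E (c + a') = ((ε / Real.sin a : ℝ) : ℂ) * E (c + a)
      + ((ε * (Real.cos a / Real.sin a - Real.cos a' / Real.sin a') : ℝ) : ℂ)
        * E (c + Real.pi) := by
  rw [h.add c a', h.add c a, h.add_pi]
  have h1 : (Real.sin a : ℂ) ≠ 0 := by exact_mod_cast ha
  have h2 : (Real.sin a' : ℂ) ≠ 0 := by exact_mod_cast ha'
  push_cast
  push_cast at h1 h2
  field_simp
  ring

theorem Sector.chord' (h : Sector b v α r0 E i1 i2) {ε a a' : ℝ} (ha : Real.sin a ≠ 0)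
    (ha' : Real.sin a' ≠ 0) (c : ℝ) :
    ((ε / Real.sin a' : ℝ) : ℂ) * E (c - a') = ((ε / Real.sin a : ℝ) : ℂ) * E (c - a)
      + ((ε * (Real.cos a / Real.sin a - Real.cos a' / Real.sin a') : ℝ) : ℂ)
        * E (c - Real.pi) := by
  rw [sub_eq_add_neg c a', sub_eq_add_neg c a, h.add c (-a'), h.add c (-a), h.sub_pi,
    Real.cos_neg, Real.cos_neg, Real.sin_neg, Real.sin_neg]
  have h1 : (Real.sin a : ℂ) ≠ 0 := by exact_mod_cast ha
  have h2 : (Real.sin a' : ℂ) ≠ 0 := by exact_mod_cast ha'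
  push_cast
  push_cast at h1 h2
  field_simp
  ring

theorem Sector.chord_psi (h : Sector b v α r0 E i1 i2) {ε β φ φ' : ℝ}
    (ha : Real.sin (φ - β) ≠ 0) (ha' : Real.sin (φ' - β) ≠ 0) (n : ℕ) :
    ((ε / Real.sin (φ' - β) : ℝ) : ℂ) * E (psi α n φ')
      = ((ε / Real.sin (φ - β) : ℝ) : ℂ) * E (psi α n φ)
      + ((ε * (Real.cos (φ - β) / Real.sin (φ - β) - Real.cos (φ' - β) / Real.sin (φ' - β)) : ℝ) : ℂ)
        * E (psi α n (β + Real.pi)) := by
  unfold psi
  split_ifs
  · have e1 : φ' - n * α = (β - n * α) + (φ' - β) := by ring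
    have e2 : φ - n * α = (β - n * α) + (φ - β) := by ring
    have e3 : β + Real.pi - n * α = (β - n * α) + Real.pi := by ring
    rw [e1, e2, e3]
    exact h.chord ha ha' _
  · have e1 : (n + 1) * α - φ' = ((n + 1) * α - β) - (φ' - β) := by ring
    have e2 : (n + 1) * α - φ = ((n + 1) * α - β) - (φ - β) := by ring
    have e3 : (n + 1) * α - (β + Real.pi) = ((n + 1) * α - β) - Real.pi := by ring
    rw [e1, e2, e3]
    exact h.chord' ha ha' _

theorem cot_lt {a a' : ℝ} (h0 : 0 < a) (h1 : a < a') (h2 : a' < Real.pi) :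
    0 < Real.cos a / Real.sin a - Real.cos a' / Real.sin a' := by
  have s1 : 0 < Real.sin a := Real.sin_pos_of_pos_of_lt_pi h0 (by linarith)
  have s2 : 0 < Real.sin a' := Real.sin_pos_of_pos_of_lt_pi (by linarith) h2
  have s3 : 0 < Real.sin (a' - a) := Real.sin_pos_of_pos_of_lt_pi (by linarith) (by linarith)
  rw [Real.sin_sub] at s3
  rw [div_sub_div _ _ s1.ne' s2.ne']
  apply div_pos _ (mul_pos s1 s2)
  linarith

theorem psi_mem {n : ℕ} {φ : ℝ} (h1 : n * α < φ) (h2 : φ < (n + 1) * α) :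
    0 < psi α n φ ∧ psi α n φ < α := by
  unfold psi
  split_ifs
  · constructor <;> linarith
  · constructor <;> linarith

theorem fan (h : Sector b v α r0 E i1 i2) {Φ : ℂ → ℂ → ℝ} (hΦ : Inv b Φ) {ε β φ0 : ℝ}
    (hε : 0 < ε) (hβ0 : 0 < β) (hφ0 : β < φ0) (hφ0' : φ0 < α) (n : ℕ) :
    ∀ φ : ℝ, n * α < φ → φ < (n + 1) * α → φ0 ≤ φ → φ < β + Real.pi →
      (∀ φ', φ0 ≤ φ' → φ' ≤ φ → ε / Real.sin (φ' - β) < r0) →
      Φ (v + ((ε / Real.sin (φ - β) : ℝ) : ℂ) * E (psi α n φ)) (E (psi α n (β + Real.pi)))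
        = Φ (v + ((ε / Real.sin (φ0 - β) : ℝ) : ℂ) * E φ0) (E (β + Real.pi)) := by
  have hsin : ∀ φ, φ0 ≤ φ → φ < β + Real.pi → 0 < Real.sin (φ - β) := fun φ h1 h2 =>
    Real.sin_pos_of_pos_of_lt_pi (by linarith) (by linarith)
  induction n with
  | zero =>
    intro φ h1 h2 h3 h4 h5
    have e0 : ∀ x, psi α 0 x = x := fun x => by simp [psi]
    rw [e0, e0]
    have hc := h.chord_psi (ε := ε) (β := β) (hsin φ0 le_rfl (by linarith)).ne' (hsin φ h3 h4).ne' 0
    rw [e0, e0, e0] at hc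
    have hx0 : ∀ i, 0 < b.coord i (v + ((ε / Real.sin (φ0 - β) : ℝ) : ℂ) * E φ0) :=
      h.inT _ _ (div_pos hε (hsin φ0 le_rfl (by linarith))) (h5 φ0 le_rfl h3) (by linarith) hφ0'
    have hx1 : ∀ i, 0 < b.coord i (v + ((ε / Real.sin (φ - β) : ℝ) : ℂ) * E φ) :=
      h.inT _ _ (div_pos hε (hsin φ h3 h4)) (h5 φ h3 le_rfl) (by linarith)
        (by push_cast at h2; linarith)
    rw [hc, ← add_assoc] at hx1 ⊢
    exact hΦ.free _ _ _ (h.ne _) hx0 hx1
  | succ n ih =>
    intro φ h1 h2 h3 h4 h5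
    push_cast at h1 h2
    have hα := h.pos
    set φc : ℝ := (n + 1) * α with hφc
    have hn0 : (0 : ℝ) ≤ n := Nat.cast_nonneg n
    have hcα : α ≤ φc := by rw [hφc]; nlinarith
    set φm : ℝ := (max (n * α) φ0 + φc) / 2 with hφm
    have m1 : max (n * α) φ0 < φc := max_lt (by rw [hφc]; nlinarith) (by linarith)
    have m2 : n * α ≤ max (n * α) φ0 := le_max_left _ _
    have m3 : φ0 ≤ max (n * α) φ0 := le_max_right _ _
    have hm1 : n * α < φm := by rw [hφm]; linarith
    have hm2 : φm < φc := by rw [hφm]; linarith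
    have hm3 : φ0 ≤ φm := by rw [hφm]; linarith
    have IH := ih φm hm1 hm2 hm3 (by linarith) (fun φ' a1 a2 => h5 φ' a1 (by linarith))
    rw [← IH]
    have sm := hsin φm hm3 (by linarith)
    have sc := hsin φc (by linarith) (by linarith)
    have sφ := hsin φ h3 h4
    have c1 := h.chord_psi (ε := ε) (β := β) sm.ne' sc.ne' n
    have c2 := h.chord_psi (ε := ε) (β := β) sc.ne' sφ.ne' (n + 1)
    have p1 : 0 < ε * (Real.cos (φm - β) / Real.sin (φm - β)
        - Real.cos (φc - β) / Real.sin (φc - β)) :=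
      mul_pos hε (cot_lt (by linarith) (by linarith) (by linarith))
    have p2 : 0 < ε * (Real.cos (φc - β) / Real.sin (φc - β)
        - Real.cos (φ - β) / Real.sin (φ - β)) :=
      mul_pos hε (cot_lt (by linarith) (by linarith) (by linarith))
    set s1 := ε * (Real.cos (φm - β) / Real.sin (φm - β)
        - Real.cos (φc - β) / Real.sin (φc - β)) with hs1
    set s2 := ε * (Real.cos (φc - β) / Real.sin (φc - β)
        - Real.cos (φ - β) / Real.sin (φ - β)) with hs2
    have hxm : ∀ i, 0 < b.coord i (v + ((ε / Real.sin (φm - β) : ℝ) : ℂ) * E (psi α n φm)) := by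
      obtain ⟨a1, a2⟩ := psi_mem hm1 hm2
      exact h.inT _ _ (div_pos hε sm) (h5 φm hm3 (by linarith)) a1 a2
    have hx1 : ∀ i, 0 < b.coord i (v + ((ε / Real.sin (φ - β) : ℝ) : ℂ) * E (psi α (n + 1) φ)) := by
      obtain ⟨a1, a2⟩ := psi_mem (α := α) (n := n + 1) (φ := φ) (by push_cast; linarith)
        (by push_cast; linarith)
      exact h.inT _ _ (div_pos hε sφ) (h5 φ h3 le_rfl) a1 a2
    have hρc : ε / Real.sin (φc - β) < r0 := h5 φc (by linarith) (by linarith)
    have hρc0 : 0 < ε / Real.sin (φc - β) := div_pos hε sc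
    rcases Nat.even_or_odd n with hn | hn
    · have q1 : psi α n φc = α := by simp only [psi, if_pos hn]; rw [hφc]; ring
      have hn' : ¬ Even (n + 1) := by rw [Nat.even_add_one]; exact not_not.2 hn
      have q2 : psi α (n + 1) φc = α := by
        simp only [psi, if_neg hn']; rw [hφc]; push_cast; ring
      have q3 : psi α (n + 1) (β + Real.pi) = 2 * α - psi α n (β + Real.pi) := by
        simp only [psi, if_pos hn, if_neg hn']; push_cast; ring
      have q4 : reflectDir (b (i1 + 2) - b (i1 + 1)) (E (psi α n (β + Real.pi)))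
          = E (psi α (n + 1) (β + Real.pi)) := by rw [h.refl1, q3]
      rw [q1] at c1
      rw [q2] at c2
      have t1 : v + ((ε / Real.sin (φm - β) : ℝ) : ℂ) * E (psi α n φm)
          + (s1 : ℂ) * E (psi α n (β + Real.pi)) = v + ((ε / Real.sin (φc - β) : ℝ) : ℂ) * E α := by
        rw [c1]; ring
      have t2 : v + ((ε / Real.sin (φm - β) : ℝ) : ℂ) * E (psi α n φm)
          + (s1 : ℂ) * E (psi α n (β + Real.pi))
          + (s2 : ℂ) * reflectDir (b (i1 + 2) - b (i1 + 1)) (E (psi α n (β + Real.pi)))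
          = v + ((ε / Real.sin (φ - β) : ℝ) : ℂ) * E (psi α (n + 1) φ) := by
        rw [t1, q4, c2]; ring
      have key := hΦ.bounce i1 (v + ((ε / Real.sin (φm - β) : ℝ) : ℂ) * E (psi α n φm))
        (E (psi α n (β + Real.pi))) s1 s2 (h.ne _) p1 p2 hxm
        (by rw [t1]; exact h.side1 _ hρc0 hρc) (by rw [t2]; exact hx1)
      rw [t2, q4] at key
      exact key
    · have hn0' : ¬ Even n := Nat.not_even_iff_odd.2 hn
      have hn' : Even (n + 1) := by rw [Nat.even_add_one]; exact hn0'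
      have q1 : psi α n φc = 0 := by simp only [psi, if_neg hn0']; rw [hφc]; ring
      have q2 : psi α (n + 1) φc = 0 := by
        simp only [psi, if_pos hn']; rw [hφc]; push_cast; ring
      have q3 : psi α (n + 1) (β + Real.pi) = - psi α n (β + Real.pi) := by
        simp only [psi, if_neg hn0', if_pos hn']; push_cast; ring
      have q4 : reflectDir (b (i2 + 2) - b (i2 + 1)) (E (psi α n (β + Real.pi)))
          = E (psi α (n + 1) (β + Real.pi)) := by rw [h.refl2, q3]
      rw [q1] at c1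
      rw [q2] at c2
      have t1 : v + ((ε / Real.sin (φm - β) : ℝ) : ℂ) * E (psi α n φm)
          + (s1 : ℂ) * E (psi α n (β + Real.pi)) = v + ((ε / Real.sin (φc - β) : ℝ) : ℂ) * E 0 := by
        rw [c1]; ring
      have t2 : v + ((ε / Real.sin (φm - β) : ℝ) : ℂ) * E (psi α n φm)
          + (s1 : ℂ) * E (psi α n (β + Real.pi))
          + (s2 : ℂ) * reflectDir (b (i2 + 2) - b (i2 + 1)) (E (psi α n (β + Real.pi)))
          = v + ((ε / Real.sin (φ - β) : ℝ) : ℂ) * E (psi α (n + 1) φ) := by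
        rw [t1, q4, c2]; ring
      have key := hΦ.bounce i2 (v + ((ε / Real.sin (φm - β) : ℝ) : ℂ) * E (psi α n φm))
        (E (psi α n (β + Real.pi))) s1 s2 (h.ne _) p1 p2 hxm
        (by rw [t1]; exact h.side2 _ hρc0 hρc) (by rw [t2]; exact hx1)
      rw [t2, q4] at key
      exact key

theorem tendsto_Inv {Φ : ℂ → ℂ → ℝ} (hΦ : Inv b Φ) {x d : ℂ} (hx : ∀ i, 0 < b.coord i x)
    (hd : d ≠ 0) {ι : Type*} {l : Filter ι} {g k : ι → ℂ} (hg : Tendsto g l (𝓝 x))
    (hk : Tendsto k l (𝓝 d)) : Tendsto (fun r => Φ (g r) (k r)) l (𝓝 (Φ x d)) := by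
  have hopen : IsOpen ({x : ℂ | ∀ i, 0 < b.coord i x} ×ˢ {d : ℂ | d ≠ 0}) := by
    refine IsOpen.prod ?_ isOpen_ne
    rw [Set.ofPred_forall]
    exact isOpen_iInter_of_finite fun i => isOpen_lt continuous_const (coord_continuous b i)
  have h1 : ContinuousAt (fun z : ℂ × ℂ => Φ z.1 z.2) (x, d) :=
    hΦ.cont.continuousAt (hopen.mem_nhds ⟨hx, hd⟩)
  exact h1.tendsto.comp (hg.prodMk_nhds hk)

/-- a ray running into the vertex comes out at the folded opposite angle -/
theorem in_out (h : Sector b v α r0 E i1 i2) {Φ : ℂ → ℂ → ℝ} (hΦ : Inv b Φ) {s β : ℝ}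
    (hs : 0 < s) (hs' : s < r0) (hβ0 : 0 < β) (hβ1 : β < α) {n : ℕ} (h1 : n * α < β + Real.pi)
    (h2 : β + Real.pi < (n + 1) * α) :
    Φ (v + s * E β) (E (β + Real.pi)) =
      Φ (v + s * E (psi α n (β + Real.pi))) (E (psi α n (β + Real.pi))) := by
  have hψ := psi_mem h1 h2
  have hpos : ∀ ψ, 0 < ψ → ψ < α → ∀ i, 0 < b.coord i (v + s * E ψ) := fun ψ a1 a2 =>
    h.inT s ψ hs hs' a1 a2
  have hpsic : Continuous (psi α n) := by
    unfold psi
    split_ifs <;> fun_prop
  have c1 : Tendsto (fun η : ℝ => v + s * E (β + η)) (𝓝[>] 0) (𝓝 (v + s * E β)) := by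
    have hc : Continuous fun η : ℝ => v + s * E (β + η) :=
      continuous_const.add (continuous_const.mul (h.cont.comp (continuous_const.add continuous_id)))
    have := (hc.tendsto 0).mono_left (nhdsWithin_le_nhds (s := Ioi 0))
    simpa using this
  have c2 : Tendsto (fun η : ℝ => v + s * E (psi α n (β + Real.pi - η))) (𝓝[>] 0)
      (𝓝 (v + s * E (psi α n (β + Real.pi)))) := by
    have hc : Continuous fun η : ℝ => v + s * E (psi α n (β + Real.pi - η)) :=
      continuous_const.add (continuous_const.mul (h.cont.comp (hpsic.comp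
        (continuous_const.sub continuous_id))))
    have := (hc.tendsto 0).mono_left (nhdsWithin_le_nhds (s := Ioi 0))
    simpa using this
  have l1 := tendsto_Inv hΦ (hpos β hβ0 hβ1) (h.ne (β + Real.pi)) c1
    (tendsto_const_nhds (x := E (β + Real.pi)))
  have l2 := tendsto_Inv hΦ (hpos _ hψ.1 hψ.2) (h.ne (psi α n (β + Real.pi))) c2
    (tendsto_const_nhds (x := E (psi α n (β + Real.pi))))
  refine tendsto_nhds_unique_of_eventuallyEq l1 l2 ?_
  have ev1 : ∀ᶠ η : ℝ in 𝓝[>] (0 : ℝ), η < α - β :=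
    nhdsWithin_le_nhds (Iio_mem_nhds (by linarith))
  have ev2 : ∀ᶠ η : ℝ in 𝓝[>] (0 : ℝ), η < β + Real.pi - n * α :=
    nhdsWithin_le_nhds (Iio_mem_nhds (by linarith))
  have ev3 : ∀ᶠ η : ℝ in 𝓝[>] (0 : ℝ), η < Real.pi / 2 :=
    nhdsWithin_le_nhds (Iio_mem_nhds (by have := Real.pi_pos; linarith))
  filter_upwards [ev1, ev2, ev3, self_mem_nhdsWithin] with η e1 e2 e3 e4
  have hη : (0 : ℝ) < η := e4
  have hsη : 0 < Real.sin η := Real.sin_pos_of_pos_of_lt_pi hη (by linarith)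
  have key := fan h hΦ (ε := s * Real.sin η) (β := β) (φ0 := β + η) (mul_pos hs hsη) hβ0
    (by linarith) (by linarith) n (β + Real.pi - η) (by linarith) (by linarith) (by linarith)
    (by linarith) (fun φ' a1 a2 => by
      have hle : Real.sin η ≤ Real.sin (φ' - β) := by
        rcases le_total (φ' - β) (Real.pi / 2) with hh | hh
        · exact Real.sin_le_sin_of_le_of_le_pi_div_two (by linarith) hh (by linarith)
        · rw [← Real.sin_pi_sub (φ' - β)]
          exact Real.sin_le_sin_of_le_of_le_pi_div_two (by linarith) (by linarith) (by linarith)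
      have hpos' : 0 < Real.sin (φ' - β) := lt_of_lt_of_le hsη hle
      rw [div_lt_iff₀ hpos']
      calc s * Real.sin η ≤ s * Real.sin (φ' - β) := mul_le_mul_of_nonneg_left hle hs.le
        _ < r0 * Real.sin (φ' - β) := mul_lt_mul_of_pos_right hs' hpos')
  have w1 : β + Real.pi - η - β = Real.pi - η := by ring
  have w2 : β + η - β = η := by ring
  rw [w1, w2, Real.sin_pi_sub, mul_div_assoc, div_self hsη.ne', mul_one] at key
  exact key.symm

theorem Sector.symm (h : Sector b v α r0 E i1 i2) :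
    Sector b v α r0 (fun ψ => E (α - ψ)) i2 i1 where
  pos := h.pos
  lt := h.lt
  r0_pos := h.r0_pos
  cont := h.cont.comp (continuous_const.sub continuous_id)
  ne := fun ψ => h.ne _
  add := fun c t => by
    have e1 : α - (c + t) = (α - c) + (-t) := by ring
    have e2 : α - (c + Real.pi / 2) = (α - c + Real.pi / 2) - Real.pi := by ring
    rw [e1, e2, h.add, h.sub_pi, Real.cos_neg, Real.sin_neg]
    push_cast
    ring
  inT := fun ρ ψ h1 h2 h3 h4 => h.inT ρ (α - ψ) h1 h2 (by linarith) (by linarith)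
  side1 := fun ρ h1 h2 => by simpa using h.side2 ρ h1 h2
  side2 := fun ρ h1 h2 => by simpa using h.side1 ρ h1 h2
  refl1 := fun ψ => by
    rw [h.refl2]
    congr 1
    ring
  refl2 := fun ψ => by
    rw [h.refl1]
    congr 1
    ring

/-- folding map of the line onto `[0, α]` -/
noncomputable def fold (α x : ℝ) : ℝ := α / Real.pi * Real.arccos (Real.cos (Real.pi * x / α))

theorem fold_neg (x : ℝ) : fold α (-x) = fold α x := by
  unfold fold
  rw [mul_neg, neg_div, Real.cos_neg]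

theorem fold_add (hα : 0 < α) (x : ℝ) (k : ℤ) : fold α (x + 2 * k * α) = fold α x := by
  unfold fold
  have : Real.pi * (x + 2 * k * α) / α = Real.pi * x / α + k * (2 * Real.pi) := by
    field_simp
  rw [this, Real.cos_add_int_mul_two_pi]

theorem fold_sub (hα : 0 < α) (x : ℝ) : fold α (α - x) = α - fold α x := by
  unfold fold
  have : Real.pi * (α - x) / α = Real.pi - Real.pi * x / α := by
    field_simp
  rw [this, Real.cos_pi_sub, Real.arccos_neg]
  have := Real.pi_pos.ne'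
  field_simp

theorem fold_cont : Continuous (fold α) := by
  unfold fold
  exact continuous_const.mul (Real.continuous_arccos.comp (Real.continuous_cos.comp
    ((continuous_const.mul continuous_id).div_const _)))

theorem fold_psi (hα : 0 < α) {n : ℕ} {φ : ℝ} (h1 : n * α < φ) (h2 : φ < (n + 1) * α) :
    fold α φ = psi α n φ := by
  have hp := psi_mem h1 h2
  have hcos : Real.cos (Real.pi * φ / α) = Real.cos (Real.pi * psi α n φ / α) := by
    unfold psi
    split_ifs with hn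
    · obtain ⟨m, hm⟩ := hn
      have : Real.pi * φ / α = Real.pi * (φ - n * α) / α + m * (2 * Real.pi) := by
        rw [hm]
        push_cast
        field_simp
        ring
      rw [this, Real.cos_add_nat_mul_two_pi]
    · rw [Nat.not_even_iff_odd] at hn
      obtain ⟨m, hm⟩ := hn
      have : Real.pi * ((n + 1) * α - φ) / α = ((m + 1 : ℕ) : ℝ) * (2 * Real.pi)
          - Real.pi * φ / α := by
        rw [hm]
        push_cast
        field_simp
        ring
      rw [this, Real.cos_nat_mul_two_pi_sub]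
  unfold fold
  rw [hcos, Real.arccos_cos]
  · have := Real.pi_pos.ne'
    field_simp
  · have := Real.pi_pos
    have := hp.1
    positivity
  · rw [div_le_iff₀ hα]
    exact mul_le_mul_of_nonneg_left hp.2.le Real.pi_pos.le

/-- the exceptional countable set of angles -/
def Bad (α : ℝ) : Set ℝ := {s | ∃ m n : ℤ, s = m * α + n * Real.pi}

theorem bad_countable : (Bad α).Countable := by
  have : Bad α = Set.range fun q : ℤ × ℤ => (q.1 : ℝ) * α + q.2 * Real.pi := by
    ext s
    simp only [Bad, Set.mem_ofPred_eq, Set.mem_range, Prod.exists]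
    constructor
    · rintro ⟨m, n, h⟩
      exact ⟨m, n, h.symm⟩
    · rintro ⟨m, n, h⟩
      exact ⟨m, n, h.symm⟩
  rw [this]
  exact Set.countable_range _

theorem bad_add {s : ℝ} (hs : s ∉ Bad α) (m n : ℤ) : s + (m * α + n * Real.pi) ∉ Bad α := by
  rintro ⟨m', n', h⟩
  apply hs
  refine ⟨m' - m, n' - n, ?_⟩
  push_cast
  linarith

theorem bad_neg {s : ℝ} (hs : s ∉ Bad α) : -s ∉ Bad α := by
  rintro ⟨m', n', h⟩
  apply hs
  refine ⟨-m', -n', ?_⟩
  push_cast
  linarith

theorem fold_mem (hα : 0 < α) {s : ℝ} (hs : s ∉ Bad α) : 0 < fold α s ∧ fold α s < α := by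
  have hsin : Real.sin (Real.pi * s / α) ≠ 0 := by
    intro h
    rw [Real.sin_eq_zero_iff] at h
    obtain ⟨n, hn⟩ := h
    apply hs
    refine ⟨n, 0, ?_⟩
    rw [eq_div_iff hα.ne'] at hn
    have h2 : Real.pi * (n * α - s) = 0 := by linarith
    rcases mul_eq_zero.1 h2 with h3 | h3
    · exact absurd h3 Real.pi_pos.ne'
    · push_cast
      linarith
  have hsq := Real.sin_sq_add_cos_sq (Real.pi * s / α)
  have hpos : 0 < Real.sin (Real.pi * s / α) ^ 2 := by positivity
  have hc1 : Real.cos (Real.pi * s / α) < 1 := by nlinarith [Real.neg_one_le_cos (Real.pi * s / α), Real.cos_le_one (Real.pi * s / α)]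
  have hc2 : -1 < Real.cos (Real.pi * s / α) := by nlinarith [Real.neg_one_le_cos (Real.pi * s / α), Real.cos_le_one (Real.pi * s / α)]
  have a1 : 0 < Real.arccos (Real.cos (Real.pi * s / α)) := Real.arccos_pos.2 hc1
  have a2 : Real.arccos (Real.cos (Real.pi * s / α)) < Real.pi := by
    refine lt_of_le_of_ne (Real.arccos_le_pi _) fun h => ?_
    rw [Real.arccos_eq_pi] at h
    linarith
  unfold fold
  have hp := Real.pi_pos
  constructor
  · positivity
  · rw [div_mul_eq_mul_div, div_lt_iff₀ hp]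
    exact mul_lt_mul_of_pos_left a2 hα

theorem exists_sector (hα : 0 < α) {x : ℝ} (hx : 0 < x) (hs : x ∉ Bad α) :
    ∃ n : ℕ, n * α < x ∧ x < (n + 1) * α := by
  refine ⟨⌊x / α⌋₊, ?_, ?_⟩
  · have h1 : (⌊x / α⌋₊ : ℝ) ≤ x / α := Nat.floor_le (by positivity)
    rw [le_div_iff₀ hα] at h1
    refine lt_of_le_of_ne h1 fun h => hs ⟨⌊x / α⌋₊, 0, ?_⟩
    push_cast
    linarith
  · have h1 : x / α < ⌊x / α⌋₊ + 1 := Nat.lt_floor_add_one _
    rwa [div_lt_iff₀ hα] at h1

/-- all rays running into the vertex carry the same value -/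
theorem vertex_const (h : Sector b v α r0 E i1 i2) {Φ : ℂ → ℂ → ℝ} (hΦ : Inv b Φ)
    (hirr : Irrational (α / Real.pi)) :
    ∃ c : ℝ, ∀ ρ ψ : ℝ, 0 < ρ → ρ < r0 → 0 < ψ → ψ < α →
      Φ (v + ρ * E ψ) (E (ψ + Real.pi)) = c := by
  have hα := h.pos
  have hr0 := h.r0_pos
  set s : ℝ := r0 / 2 with hs
  have hs0 : 0 < s := by linarith
  have hs1 : s < r0 := by linarith
  set out : ℝ → ℝ := fun ψ => Φ (v + s * E ψ) (E ψ) with hout
  set inn : ℝ → ℝ := fun ψ => Φ (v + s * E ψ) (E (ψ + Real.pi)) with hinn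
  set F : ℝ → ℝ := fun x => out (fold α x) with hF
  have hpi := Real.pi_pos
  have hposn : ∀ ψ, 0 < ψ → ψ < α → ∀ i, 0 < b.coord i (v + s * E ψ) := fun ψ a1 a2 =>
    h.inT s ψ hs0 hs1 a1 a2
  have hpt : Continuous fun ψ : ℝ => v + s * E ψ := continuous_const.add
    (continuous_const.mul h.cont)
  have R1 : ∀ β, 0 < β → β < α → β ∉ Bad α → inn β = F (β + Real.pi) := by
    intro β h1 h2 h3
    have h4 : β + Real.pi ∉ Bad α := by simpa using bad_add h3 0 1
    obtain ⟨n, n1, n2⟩ := exists_sector hα (by linarith) h4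
    have := in_out h hΦ hs0 hs1 h1 h2 n1 n2
    simp only [hinn, hF, hout]
    rw [this, fold_psi hα n1 n2]
  have R2 : ∀ γ, 0 < γ → γ < α → γ ∉ Bad α → inn γ = F (γ - Real.pi) := by
    intro γ h1 h2 h3
    have h4 : α - γ + Real.pi ∉ Bad α := by
      have := bad_add (bad_neg h3) 1 1
      have e : -γ + (((1 : ℤ) : ℝ) * α + ((1 : ℤ) : ℝ) * Real.pi) = α - γ + Real.pi := by
        push_cast; ring
      rwa [e] at this
    obtain ⟨n, n1, n2⟩ := exists_sector hα (by linarith) h4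
    have key := in_out h.symm hΦ (β := α - γ) hs0 hs1 (by linarith) (by linarith) n1 n2
    have e1 : α - (α - γ) = γ := by ring
    have e2 : α - (α - γ + Real.pi) = γ - Real.pi := by ring
    have e3 : E (γ - Real.pi) = E (γ + Real.pi) := by rw [h.sub_pi, h.add_pi]
    rw [← fold_psi hα n1 n2, ← fold_sub hα, e1, e2, e3] at key
    simp only [hinn, hF, hout]
    exact key
  have hFc : ∀ x, x ∉ Bad α → ContinuousAt F x := by
    intro x hx
    obtain ⟨f1, f2⟩ := fold_mem hα hx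
    exact tendsto_Inv hΦ (hposn _ f1 f2) (h.ne _)
      ((hpt.comp fold_cont).tendsto x) ((h.cont.comp fold_cont).tendsto x)
  have hFe : ∀ x, F (-x) = F x := fun x => by simp only [hF]; rw [fold_neg]
  have hFa : ∀ (x : ℝ) (k : ℤ), F (x + 2 * k * α) = F x := fun x k => by
    simp only [hF]; rw [fold_add hα]
  have R3 : ∀ x, x ∉ Bad α → F (x + Real.pi) = F (x - Real.pi) := by
    intro x hx
    obtain ⟨f1, f2⟩ := fold_mem hα hx
    have hcos : Real.cos (Real.pi * fold α x / α) = Real.cos (Real.pi * x / α) := by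
      have : Real.pi * fold α x / α = Real.arccos (Real.cos (Real.pi * x / α)) := by
        unfold fold
        field_simp
      rw [this, Real.cos_arccos (Real.neg_one_le_cos _) (Real.cos_le_one _)]
    obtain ⟨k, hk⟩ := Real.cos_eq_cos_iff.1 hcos
    have hg : ∀ γ, 0 < γ → γ < α → γ ∉ Bad α → F (γ + Real.pi) = F (γ - Real.pi) :=
      fun γ a1 a2 a3 => (R1 γ a1 a2 a3).symm.trans (R2 γ a1 a2 a3)
    rcases hk with hk | hk
    · have e : x = fold α x + 2 * k * α := by
        field_simp at hk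
        linarith
      have hb : fold α x ∉ Bad α := by
        have := bad_add hx (-(2 * k)) 0
        have e2 : x + (((-(2 * k) : ℤ) : ℝ) * α + ((0 : ℤ) : ℝ) * Real.pi) = fold α x := by
          push_cast; linarith
        rwa [e2] at this
      have e3 : x + Real.pi = (fold α x + Real.pi) + 2 * k * α := by linarith
      have e4 : x - Real.pi = (fold α x - Real.pi) + 2 * k * α := by linarith
      rw [e3, e4, hFa, hFa]
      exact hg _ f1 f2 hb
    · have e : x = - fold α x + 2 * k * α := by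
        field_simp at hk
        linarith
      have hb : fold α x ∉ Bad α := by
        have := bad_neg (bad_add hx (-(2 * k)) 0)
        have e2 : -(x + (((-(2 * k) : ℤ) : ℝ) * α + ((0 : ℤ) : ℝ) * Real.pi)) = fold α x := by
          push_cast; linarith
        rwa [e2] at this
      have e3 : x + Real.pi = -(fold α x - Real.pi) + 2 * k * α := by linarith
      have e4 : x - Real.pi = -(fold α x + Real.pi) + 2 * k * α := by linarith
      rw [e3, e4, hFa, hFa, hFe, hFe]
      exact (hg _ f1 f2 hb).symm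
  let G : AddSubgroup ℝ := AddSubgroup.closure {2 * α, 2 * Real.pi}
  have R4 : ∀ g ∈ G, (∃ m n : ℤ, g = m * α + n * Real.pi) ∧ ∀ x, x ∉ Bad α → F (x + g) = F x := by
    intro g hg
    refine AddSubgroup.closure_induction (p := fun g _ => (∃ m n : ℤ, g = m * α + n * Real.pi) ∧
      ∀ x, x ∉ Bad α → F (x + g) = F x) ?_ ?_ ?_ ?_ hg
    · rintro t (rfl | rfl)
      · refine ⟨⟨2, 0, by push_cast; ring⟩, fun x hx => ?_⟩
        have := hFa x 1
        have e : x + 2 * ((1 : ℤ) : ℝ) * α = x + 2 * α := by push_cast; ring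
        rwa [e] at this
      · refine ⟨⟨0, 2, by push_cast; ring⟩, fun x hx => ?_⟩
        have h1 : x + Real.pi ∉ Bad α := by simpa using bad_add hx 0 1
        have h2 := R3 (x + Real.pi) h1
        have e1 : x + Real.pi + Real.pi = x + 2 * Real.pi := by ring
        have e2 : x + Real.pi - Real.pi = x := by ring
        rwa [e1, e2] at h2
    · exact ⟨⟨0, 0, by push_cast; ring⟩, fun x _ => by rw [add_zero]⟩
    · rintro g1 g2 _ _ ⟨⟨m1, n1, h1⟩, h2⟩ ⟨⟨m2, n2, h3⟩, h4⟩
      refine ⟨⟨m1 + m2, n1 + n2, by push_cast; rw [h1, h3]; ring⟩, fun x hx => ?_⟩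
      rw [← add_assoc, h4 _ (by rw [h1]; exact bad_add hx m1 n1), h2 x hx]
    · rintro g1 _ ⟨⟨m1, n1, h1⟩, h2⟩
      refine ⟨⟨-m1, -n1, by push_cast; rw [h1]; ring⟩, fun x hx => ?_⟩
      have h3 : x + -g1 ∉ Bad α := by
        have := bad_add hx (-m1) (-n1)
        have e : x + (((-m1 : ℤ) : ℝ) * α + ((-n1 : ℤ) : ℝ) * Real.pi) = x + -g1 := by
          push_cast; rw [h1]; ring
        rwa [e] at this
      have := h2 _ h3
      rw [neg_add_cancel_right] at this
      exact this.symm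
  have hirr2 : Irrational (2 * α / (2 * Real.pi)) := by
    rwa [mul_div_mul_left _ _ (two_ne_zero)]
  have hd : Dense (G : Set ℝ) := dense_addSubgroupClosure_pair_iff.2 hirr2
  have R5 : ∀ x y, x ∉ Bad α → y ∉ Bad α → F y = F x := by
    intro x y hx hy
    by_contra hne
    have hca : ContinuousAt (fun t => F (x + t)) (y - x) := by
      have : ContinuousAt F (x + (y - x)) := by rw [add_sub_cancel]; exact hFc y hy
      exact this.comp (continuousAt_const.add continuousAt_id)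
    have hev : ∀ᶠ t in 𝓝 (y - x), F (x + t) ≠ F x := by
      refine hca.eventually_ne ?_
      rw [add_sub_cancel]
      exact hne
    obtain ⟨g, hg1, hg2⟩ := hd.inter_nhds_nonempty hev
    exact hg2 ((R4 g hg1).2 x hx)
  have hdense : Dense (Bad α)ᶜ := bad_countable.dense_compl ℝ
  obtain ⟨x0, hx0⟩ := hdense.nonempty
  refine ⟨F x0, ?_⟩
  have R6 : ∀ β, 0 < β → β < α → inn β = F x0 := by
    intro β h1 h2
    by_contra hne
    have hca : ContinuousAt inn β := tendsto_Inv hΦ (hposn _ h1 h2) (h.ne _) (hpt.tendsto β)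
      ((h.cont.comp (continuous_id.add continuous_const)).tendsto β)
    have hev : ∀ᶠ t in 𝓝 β, inn t ≠ F x0 := hca.eventually_ne hne
    have hev2 : ∀ᶠ t in 𝓝 β, 0 < t ∧ t < α := (Ioo_mem_nhds h1 h2)
    obtain ⟨g, hg1, hg2⟩ := hdense.inter_nhds_nonempty (hev.and hev2)
    apply hg2.1
    rw [R1 g hg2.2.1 hg2.2.2 hg1]
    exact R5 _ _ hx0 (by simpa using bad_add hg1 0 1)
  intro ρ ψ h1 h2 h3 h4
  rw [← R6 ψ h3 h4]
  simp only [hinn]
  have e : v + s * E ψ = v + ρ * E ψ + ((ρ - s : ℝ) : ℂ) * E (ψ + Real.pi) := by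
    rw [h.add_pi]
    push_cast
    ring
  have hp1 := h.inT ρ ψ h1 h2 h3 h4
  have hp2 := hposn ψ h3 h4
  rw [e] at hp2 ⊢
  exact (hΦ.free _ _ _ (h.ne _) hp1 hp2).symm

end fan

/-! ### the sector at a vertex -/

section sector

/-- unit complex number of angle `x`, with orientation `τ` -/
noncomputable def uni (τ x : ℝ) : ℂ := (Real.cos x : ℂ) + τ * (Real.sin x : ℂ) * Complex.I

theorem uni_mul {τ : ℝ} (hτ : τ ^ 2 = 1) (x y : ℝ) : uni τ x * uni τ y = uni τ (x + y) := by
  have h1 : (τ : ℂ) ^ 2 = 1 := by exact_mod_cast hτ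
  unfold uni
  rw [Real.cos_add, Real.sin_add]
  push_cast
  linear_combination (Complex.sin x * Complex.sin y * (τ : ℂ) ^ 2) * Complex.I_sq
    - (Complex.sin x * Complex.sin y) * h1

theorem uni_zero (τ : ℝ) : uni τ 0 = 1 := by simp [uni]

theorem uni_ne {τ : ℝ} (hτ : τ ^ 2 = 1) (x : ℝ) : uni τ x ≠ 0 := by
  intro h
  have := uni_mul hτ x (-x)
  rw [h, zero_mul, add_neg_cancel, uni_zero] at this
  exact zero_ne_one this

theorem uni_conj (τ x : ℝ) : (starRingEnd ℂ) (uni τ x) = uni τ (-x) := by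
  unfold uni
  rw [Real.cos_neg, Real.sin_neg]
  simp only [map_add, map_mul, Complex.conj_ofReal, Complex.conj_I]
  push_cast
  ring

theorem uni_norm {τ : ℝ} (hτ : τ ^ 2 = 1) (x : ℝ) : ‖uni τ x‖ = 1 := by
  have h1 : ((‖uni τ x‖ : ℂ)) ^ 2 = 1 := by
    rw [← Complex.mul_conj', uni_conj, uni_mul hτ, add_neg_cancel, uni_zero]
  have h2 : ‖uni τ x‖ ^ 2 = 1 := by exact_mod_cast h1
  nlinarith [norm_nonneg (uni τ x)]

theorem exists_sector_at (b : AffineBasis (Fin 3) ℝ ℂ) (l : Fin 3) :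
    ∃ (r0 : ℝ) (E : ℝ → ℂ),
      Sector b (b l) (EuclideanGeometry.angle (b (l + 1)) (b l) (b (l + 2))) r0 E (l + 1) (l + 2) ∧
      ∀ x, (∀ i, 0 < b.coord i x) → ∃ ρ ψ : ℝ, 0 < ρ ∧ 0 < ψ ∧
        ψ < EuclideanGeometry.angle (b (l + 1)) (b l) (b (l + 2)) ∧ x = b l + ρ * E ψ := by
  have h3 : ∀ l : Fin 3, l + 1 + 1 = l + 2 ∧ l + 1 + 2 = l ∧ l + 2 + 1 = l ∧ l + 2 + 2 = l + 1 ∧
      l + 1 ≠ l ∧ l + 2 ≠ l ∧ l + 1 ≠ l + 2 ∧ l + 2 ≠ l + 1 := by decide
  obtain ⟨n1, n2, n3, n4, n5, n6, n7, n8⟩ := h3 l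
  set d1 : ℂ := b (l + 1) - b l with hd1
  set d2 : ℂ := b (l + 2) - b l with hd2
  have m11 : dco b (l + 1) d1 = 1 := by
    rw [hd1, dco_vertex, if_pos rfl, if_neg n5, sub_zero]
  have m12 : dco b (l + 1) d2 = 0 := by
    rw [hd2, dco_vertex, if_neg n7, if_neg n5, sub_zero]
  have m21 : dco b (l + 2) d1 = 0 := by
    rw [hd1, dco_vertex, if_neg n8, if_neg n6, sub_zero]
  have m22 : dco b (l + 2) d2 = 1 := by
    rw [hd2, dco_vertex, if_pos rfl, if_neg n6, sub_zero]
  have d1ne : d1 ≠ 0 := by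
    intro h
    rw [h] at m11
    simp [dco] at m11
  have d2ne : d2 ≠ 0 := by
    intro h
    rw [h] at m22
    simp [dco] at m22
  have hN1 : 0 < ‖d1‖ := norm_pos_iff.2 d1ne
  have hN2 : 0 < ‖d2‖ := norm_pos_iff.2 d2ne
  set r : ℂ := d2 / d1 with hr
  have hang : EuclideanGeometry.angle (b (l + 1)) (b l) (b (l + 2)) = |r.arg| := by
    rw [EuclideanGeometry.angle, vsub_eq_sub, vsub_eq_sub, InnerProductGeometry.angle_comm,
      Complex.angle_eq_abs_arg d2ne d1ne]
  have him : r.im ≠ 0 := by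
    intro h
    have e1 : r = (r.re : ℂ) := by
      apply Complex.ext
      · simp
      · simpa using h
    have e2 : d2 = (r.re : ℂ) * d1 := by
      rw [← e1, hr]
      field_simp
    have e3 := dco_smul b (l + 2) r.re d1
    rw [← e2, m22, m21, mul_zero] at e3
    exact one_ne_zero e3
  set α : ℝ := |r.arg| with hα
  have harg0 : r.arg ≠ 0 := fun h => him (Complex.arg_eq_zero_iff.1 h).2
  have hargpi : r.arg ≠ Real.pi := fun h => him (Complex.arg_eq_pi_iff.1 h).2
  have hα0 : 0 < α := abs_pos.2 harg0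
  have hαpi : α < Real.pi := by
    have h1 := Complex.neg_pi_lt_arg r
    have h2 := Complex.arg_le_pi r
    exact abs_lt.2 ⟨h1, lt_of_le_of_ne h2 hargpi⟩
  have hsα : 0 < Real.sin α := Real.sin_pos_of_pos_of_lt_pi hα0 hαpi
  obtain ⟨τ, hτ, hτs⟩ : ∃ τ : ℝ, τ ^ 2 = 1 ∧ Real.sin r.arg = τ * Real.sin α := by
    rcases abs_choice r.arg with h | h
    · exact ⟨1, by norm_num, by rw [hα, h, one_mul]⟩
    · refine ⟨-1, by norm_num, ?_⟩
      rw [hα, h, Real.sin_neg]
      ring
  have hcosα : Real.cos r.arg = Real.cos α := by rw [hα, Real.cos_abs]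
  set κ : ℂ := d1 / ‖d1‖ with hκ
  have hN1' : ((‖d1‖ : ℝ) : ℂ) ≠ 0 := by exact_mod_cast hN1.ne'
  have hN2' : ((‖d2‖ : ℝ) : ℂ) ≠ 0 := by exact_mod_cast hN2.ne'
  have hκn : ‖κ‖ = 1 := by rw [hκ, norm_div, Complex.norm_real, norm_norm, div_self hN1.ne']
  have hκ0 : κ ≠ 0 := by
    intro h
    rw [h, norm_zero] at hκn
    exact zero_ne_one hκn
  set E : ℝ → ℂ := fun ψ => κ * uni τ ψ with hE
  have hE0 : d1 = ‖d1‖ * E 0 := by
    simp only [hE, uni_zero, hκ]
    field_simp
  have hEα : d2 = ‖d2‖ * E α := by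
    have e1 : r = ‖r‖ * uni τ α := by
      have h1 := Complex.norm_mul_exp_arg_mul_I r
      rw [Complex.exp_mul_I] at h1
      have h2 : Complex.cos (r.arg : ℂ) = (Real.cos α : ℂ) := by
        rw [← Complex.ofReal_cos, hcosα]
      have h4 : Complex.sin (r.arg : ℂ) = (τ : ℂ) * (Real.sin α : ℂ) := by
        rw [← Complex.ofReal_sin, hτs]
        push_cast
        ring
      rw [h2, h4] at h1
      exact h1.symm
    have e2 : ‖r‖ = ‖d2‖ / ‖d1‖ := by rw [hr, norm_div]
    have e3 : d2 = r * d1 := by rw [hr]; field_simp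
    have e2' : ((‖r‖ : ℝ) : ℂ) = ‖d2‖ / ‖d1‖ := by rw [e2]; push_cast; rfl
    calc d2 = r * d1 := e3
      _ = (‖r‖ * uni τ α) * d1 := by rw [← e1]
      _ = ‖d2‖ * E α := by
          rw [e2']
          simp only [hE, hκ]
          field_simp
  have hEn : ∀ ψ, ‖E ψ‖ = 1 := fun ψ => by
    simp only [hE]
    rw [norm_mul, hκn, uni_norm hτ, one_mul]
  have hEne : ∀ ψ, E ψ ≠ 0 := fun ψ => mul_ne_zero hκ0 (uni_ne hτ ψ)
  have hEadd : ∀ c t : ℝ, E (c + t) = Real.cos t * E c + Real.sin t * E (c + Real.pi / 2) := by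
    intro c t
    simp only [hE, uni]
    rw [Real.cos_add, Real.sin_add, Real.cos_add_pi_div_two, Real.sin_add_pi_div_two]
    push_cast
    ring
  have hcomb : ∀ ψ : ℝ, (Real.sin α : ℂ) * E ψ
      = (Real.sin (α - ψ) : ℂ) * E 0 + (Real.sin ψ : ℂ) * E α := by
    intro ψ
    simp only [hE, uni]
    rw [Real.sin_sub]
    push_cast
    simp only [Complex.cos_zero, Complex.sin_zero]
    ring
  have p11 : dco b (l + 1) (E 0) = 1 / ‖d1‖ := by
    have := dco_smul b (l + 1) ‖d1‖ (E 0)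
    rw [← hE0, m11] at this
    rw [eq_div_iff hN1.ne']
    linarith
  have p12 : dco b (l + 1) (E α) = 0 := by
    have := dco_smul b (l + 1) ‖d2‖ (E α)
    rw [← hEα, m12] at this
    rcases mul_eq_zero.1 this.symm with h | h
    · exact absurd h hN2.ne'
    · exact h
  have p21 : dco b (l + 2) (E 0) = 0 := by
    have := dco_smul b (l + 2) ‖d1‖ (E 0)
    rw [← hE0, m21] at this
    rcases mul_eq_zero.1 this.symm with h | h
    · exact absurd h hN1.ne'
    · exact h
  have p22 : dco b (l + 2) (E α) = 1 / ‖d2‖ := by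
    have := dco_smul b (l + 2) ‖d2‖ (E α)
    rw [← hEα, m22] at this
    rw [eq_div_iff hN2.ne']
    linarith
  have q1 : ∀ ψ, Real.sin α * dco b (l + 1) (E ψ) = Real.sin (α - ψ) * (1 / ‖d1‖) := by
    intro ψ
    rw [← dco_smul, hcomb, dco_add, dco_smul, dco_smul, p11, p12]
    ring
  have q2 : ∀ ψ, Real.sin α * dco b (l + 2) (E ψ) = Real.sin ψ * (1 / ‖d2‖) := by
    intro ψ
    rw [← dco_smul, hcomb, dco_add, dco_smul, dco_smul, p21, p22]
    ring
  obtain ⟨C, hC0, hC⟩ := exists_lip b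
  have hl : ∀ (ρ ψ : ℝ), 0 < ρ → ρ < 1 / C → 0 < b.coord l (b l + ρ * E ψ) := by
    intro ρ ψ h1 h2
    rw [coord_add_smul, coord_vertex, if_pos rfl]
    have h4 := hC l (E ψ)
    rw [hEn, mul_one] at h4
    have h5 := (abs_le.1 h4).1
    rw [lt_div_iff₀ hC0] at h2
    nlinarith
  have hl1 : ∀ (ρ ψ : ℝ), b.coord (l + 1) (b l + ρ * E ψ) = ρ * dco b (l + 1) (E ψ) := by
    intro ρ ψ
    rw [coord_add_smul, coord_vertex, if_neg n5, zero_add]
  have hl2 : ∀ (ρ ψ : ℝ), b.coord (l + 2) (b l + ρ * E ψ) = ρ * dco b (l + 2) (E ψ) := by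
    intro ρ ψ
    rw [coord_add_smul, coord_vertex, if_neg n6, zero_add]
  have conjE : ∀ ψ, (starRingEnd ℂ) (E ψ) = (starRingEnd ℂ) κ * uni τ (-ψ) := fun ψ => by
    simp only [hE]
    rw [map_mul, uni_conj]
  have hκc : (starRingEnd ℂ) κ ≠ 0 := by simpa using hκ0
  rw [hang]
  refine ⟨1 / C, E, ?_, ?_⟩
  · exact
    { pos := hα0
      lt := hαpi
      r0_pos := by positivity
      cont := by
        simp only [hE, uni]
        fun_prop
      ne := hEne
      add := hEadd
      inT := fun ρ ψ h1 h2 h4 h5 i => by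
        rcases fin3_cases l i with h | h | h <;> rw [h]
        · exact hl ρ ψ h1 h2
        · rw [hl1]
          have h6 := q1 ψ
          have h7 : 0 < Real.sin (α - ψ) :=
            Real.sin_pos_of_pos_of_lt_pi (by linarith) (by linarith)
          have h8 : 0 < Real.sin (α - ψ) * (1 / ‖d1‖) := by positivity
          rw [← h6] at h8
          exact mul_pos h1 (pos_of_mul_pos_right h8 hsα.le)
        · rw [hl2]
          have h6 := q2 ψ
          have h7 : 0 < Real.sin ψ := Real.sin_pos_of_pos_of_lt_pi h4 (by linarith)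
          have h8 : 0 < Real.sin ψ * (1 / ‖d2‖) := by positivity
          rw [← h6] at h8
          exact mul_pos h1 (pos_of_mul_pos_right h8 hsα.le)
      side1 := fun ρ h1 h2 => by
        refine mem_side b ?_ ?_ ?_
        · rw [hl1, p12, mul_zero]
        · rw [n1, hl2, p22]
          positivity
        · rw [n2]
          exact hl ρ α h1 h2
      side2 := fun ρ h1 h2 => by
        refine mem_side b ?_ ?_ ?_
        · rw [hl2, p21, mul_zero]
        · rw [n3]
          exact hl ρ 0 h1 h2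
        · rw [n4, hl1, p11]
          positivity
      refl1 := fun ψ => by
        rw [n1, n2]
        have e1 : b l - b (l + 2) = -(‖d2‖ * E α) := by rw [← hEα, hd2]; ring
        have e2 : (starRingEnd ℂ) (E α) ≠ 0 := by simpa using hEne α
        rw [e1, reflectDir, map_neg, map_mul, Complex.conj_ofReal, neg_div_neg_eq,
          mul_div_mul_left _ _ hN2', div_mul_eq_mul_div, div_eq_iff e2, conjE, conjE]
        simp only [hE]
        have e3 : uni τ α * uni τ (-ψ) = uni τ (2 * α - ψ) * uni τ (-α) := by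
          rw [uni_mul hτ, uni_mul hτ]
          congr 1
          ring
        linear_combination (κ * (starRingEnd ℂ) κ) * e3
      refl2 := fun ψ => by
        rw [n3, n4]
        have e1 : b (l + 1) - b l = ‖d1‖ * E 0 := by rw [← hE0, hd1]
        have e2 : (starRingEnd ℂ) (E 0) ≠ 0 := by simpa using hEne 0
        rw [e1, reflectDir, map_mul, Complex.conj_ofReal,
          mul_div_mul_left _ _ hN1', div_mul_eq_mul_div, div_eq_iff e2, conjE, conjE]
        simp only [hE]
        rw [neg_zero, uni_zero]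
        ring }
  · intro x hx
    have hA := hx (l + 1)
    have hB := hx (l + 2)
    have hdec := decomp b (l + 2) (x - b l)
    rw [n3, n4] at hdec
    have hc : ∀ k, dco b k (x - b l) = b.coord k x - b.coord k (b l) := by
      intro k
      have e := coord_add b k (b l) (x - b l)
      rw [add_sub_cancel] at e
      linarith
    rw [hc, hc, coord_vertex, coord_vertex, if_neg n5, if_neg n6, sub_zero, sub_zero] at hdec
    change x - b l = (b.coord (l + 2) x : ℂ) * d2 + (b.coord (l + 1) x : ℂ) * d1 at hdec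
    set a : ℝ := b.coord (l + 1) x * ‖d1‖ with ha
    set c : ℝ := b.coord (l + 2) x * ‖d2‖ with hcdef
    have ha0 : 0 < a := mul_pos hA hN1
    have hc0 : 0 < c := mul_pos hB hN2
    set z : ℂ := ⟨a + c * Real.cos α, c * Real.sin α⟩ with hz
    have hre : ‖z‖ * Real.cos z.arg = a + c * Real.cos α := Complex.norm_mul_cos_arg z
    have him' : ‖z‖ * Real.sin z.arg = c * Real.sin α := Complex.norm_mul_sin_arg z
    have hzn : 0 < ‖z‖ := by
      refine norm_pos_iff.2 fun h => ?_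
      have : z.im = 0 := by rw [h]; rfl
      have h4 : z.im = c * Real.sin α := rfl
      rw [h4] at this
      exact (mul_pos hc0 hsα).ne' this
    have hsin : 0 < Real.sin z.arg := by
      have : 0 < ‖z‖ * Real.sin z.arg := by rw [him']; positivity
      exact pos_of_mul_pos_right this hzn.le
    have hψ0 : 0 < z.arg := by
      by_contra hcon
      have := Real.sin_nonpos_of_nonpos_of_neg_pi_le (not_lt.1 hcon) (Complex.neg_pi_lt_arg z).le
      linarith
    have hψα : z.arg < α := by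
      by_contra hcon
      have h4 : Real.sin (α - z.arg) ≤ 0 :=
        Real.sin_nonpos_of_nonpos_of_neg_pi_le (by linarith)
          (by have := Complex.arg_le_pi z; linarith)
      have h5 : ‖z‖ * Real.sin (α - z.arg) = a * Real.sin α := by
        rw [Real.sin_sub]
        linear_combination (Real.sin α) * hre - (Real.cos α) * him'
      have h6 : 0 < a * Real.sin α := by positivity
      rw [← h5] at h6
      have h7 := pos_of_mul_pos_right h6 hzn.le
      linarith
    refine ⟨‖z‖, z.arg, hzn, hψ0, hψα, ?_⟩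
    have e1 : ((‖z‖ : ℝ) : ℂ) * uni τ z.arg = a + c * uni τ α := by
      have hre' : ((‖z‖ : ℝ) : ℂ) * (Real.cos z.arg : ℂ) = a + c * (Real.cos α : ℂ) := by
        exact_mod_cast hre
      have him'' : ((‖z‖ : ℝ) : ℂ) * (Real.sin z.arg : ℂ) = c * (Real.sin α : ℂ) := by
        exact_mod_cast him'
      unfold uni
      linear_combination hre' + (τ * Complex.I) * him''
    have e2 : ((‖z‖ : ℝ) : ℂ) * E z.arg = (a : ℂ) * E 0 + c * E α := by
      simp only [hE, uni_zero]
      linear_combination κ * e1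
    have e3 : x = b l + ((b.coord (l + 2) x : ℂ) * d2 + (b.coord (l + 1) x : ℂ) * d1) := by
      rw [← hdec]; ring
    have e4 : (b.coord (l + 1) x : ℂ) * d1 = (a : ℂ) * E 0 := by
      conv_lhs => rw [hE0]
      rw [ha]
      push_cast
      ring
    have e5 : (b.coord (l + 2) x : ℂ) * d2 = (c : ℂ) * E α := by
      conv_lhs => rw [hEα]
      rw [hcdef]
      push_cast
      ring
    rw [e2, ← e4, ← e5]
    conv_lhs => rw [e3]
    ring

end sector

/-! ### the beam -/

section beam2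

variable (b : AffineBasis (Fin 3) ℝ ℂ)

theorem exit_unique' {y d : ℂ} {j k : Fin 3} (hvert : ∀ l : Fin 3, y + tau b y j d * d ≠ b l)
    (hj : dco b j d < 0) (hk : dco b k d < 0)
    (hj' : ∀ i, 0 ≤ b.coord i (y + tau b y j d * d))
    (hk' : ∀ i, 0 ≤ b.coord i (y + tau b y k d * d)) : j = k := by
  by_contra hjk
  have h1 : tau b y k d ≤ tau b y j d := by
    have e1 := coord_tau b (y := y) hj
    have e2 := hk' j
    rw [coord_add_smul] at e1 e2
    nlinarith
  have h2 : tau b y j d ≤ tau b y k d := by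
    have e1 := coord_tau b (y := y) hk
    have e2 := hj' k
    rw [coord_add_smul] at e1 e2
    nlinarith
  have h3 : tau b y j d = tau b y k d := le_antisymm h2 h1
  obtain ⟨l, hl⟩ := vertex_of_zero b hjk (coord_tau b (y := y) hj)
    (by rw [h3]; exact coord_tau b (y := y) hk)
  exact hvert l hl

theorem step' {I : Set ℝ} (hI : IsPreconnected I) (hne : I.Nonempty) (y : ℂ) (v : ℝ → ℂ)
    (hv : Continuous v) (hv0 : ∀ u ∈ I, v u ≠ 0) (t : ℝ → ℝ)
    (hin : ∀ u ∈ I, ∀ i, 0 ≤ b.coord i (y + t u * v u))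
    (h0 : ∀ u ∈ I, ∀ i, b.coord i (y + t u * v u) = 0 → 0 < dco b i (v u))
    (hvert : ∀ u ∈ I, ∀ s : ℝ, t u < s → ∀ l : Fin 3, y + s * v u ≠ b l) :
    ∃ j, ∀ u ∈ I, dco b j (v u) < 0 ∧ t u < tau b y j (v u) ∧
      ∀ i, 0 ≤ b.coord i (y + tau b y j (v u) * v u) := by
  classical
  have hex : ∀ u, ∃ j, u ∈ I → dco b j (v u) < 0 ∧ t u < tau b y j (v u) ∧
      ∀ i, 0 ≤ b.coord i (y + tau b y j (v u) * v u) := by
    intro u
    by_cases hu : u ∈ I
    · obtain ⟨j, s, hs, hj, hT, hz⟩ := exit b (hin u hu) (hv0 u hu) (h0 u hu)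
      refine ⟨j, fun _ => ⟨hj, ?_, ?_⟩⟩
      · have e : y + t u * v u + s * v u = y + ((t u + s : ℝ) : ℂ) * v u := by push_cast; ring
        rw [e] at hz
        rw [← tau_unique b hj hz]
        linarith
      · have e : y + t u * v u + s * v u = y + ((t u + s : ℝ) : ℂ) * v u := by push_cast; ring
        rw [e] at hz hT
        rw [← tau_unique b hj hz]
        exact hT
    · exact ⟨0, fun h => absurd h hu⟩
  choose J hJ using hex
  have hcont : ContinuousOn J I := by
    intro u hu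
    obtain ⟨hj, htj, hT⟩ := hJ u hu
    have hm : ∀ i, Continuous fun w => dco b i (v w) := fun i => (dco_continuous b i).comp hv
    have htau : ContinuousAt (fun w => tau b y (J u) (v w)) u :=
      ContinuousAt.div continuousAt_const (hm (J u)).continuousAt.neg (by
        simp only [ne_eq, neg_eq_zero]; exact hj.ne)
    have hpt : ContinuousAt (fun w => y + (tau b y (J u) (v w) : ℂ) * v w) u :=
      continuousAt_const.add ((Complex.continuous_ofReal.continuousAt.comp htau).mul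
        hv.continuousAt)
    have ev1 : ∀ᶠ w in 𝓝 u, dco b (J u) (v w) < 0 :=
      (hm (J u)).continuousAt.eventually_lt continuousAt_const hj
    have ev2 : ∀ i, i ≠ J u → ∀ᶠ w in 𝓝 u, 0 < b.coord i (y + (tau b y (J u) (v w) : ℂ) * v w) := by
      intro i hi
      have hc : ContinuousAt (fun w => b.coord i (y + (tau b y (J u) (v w) : ℂ) * v w)) u :=
        (coord_continuous b i).continuousAt.comp hpt
      have hpos : 0 < b.coord i (y + (tau b y (J u) (v u) : ℂ) * v u) := by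
        rcases (hT i).lt_or_eq with h | h
        · exact h
        · obtain ⟨l, hl⟩ := vertex_of_zero b hi h.symm (coord_tau b (y := y) hj)
          exact absurd hl (hvert u hu _ htj l)
      exact continuousAt_const.eventually_lt hc hpos
    have ev3 : ∀ᶠ w in 𝓝 u, ∀ i, i ≠ J u →
        0 < b.coord i (y + (tau b y (J u) (v w) : ℂ) * v w) := by
      rw [eventually_all]
      intro i
      by_cases hi : i = J u
      · exact Eventually.of_forall fun w h => absurd hi h
      · filter_upwards [ev2 i hi] with w hw _ using hw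
    rw [ContinuousWithinAt, nhds_discrete (Fin 3), tendsto_pure]
    filter_upwards [nhdsWithin_le_nhds ev1, nhdsWithin_le_nhds ev3, self_mem_nhdsWithin]
      with w hw1 hw3 hwI
    obtain ⟨kj, kt, kT⟩ := hJ w hwI
    refine exit_unique' b (hvert w hwI _ kt) kj hw1 kT fun i => ?_
    by_cases hi : i = J u
    · rw [hi, coord_tau b hw1]
    · exact (hw3 i hi).le
  obtain ⟨u0, hu0⟩ := hne
  refine ⟨J u0, fun u hu => ?_⟩
  have := hI.constant hcont hu0 hu
  rw [this]
  exact hJ u hu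

/-- state of the unfolding, open version -/
def Good' (Φ : ℂ → ℂ → ℝ) (x0 θ : ℂ) (δ : ℝ) (s : St) : Prop :=
  Lin s.L ∧
  (∀ u ∈ Icc (-δ) δ, ∀ t : ℝ, (∀ i, 0 < b.coord i (s.y + t * s.L (dir θ u))) →
    Φ (s.y + t * s.L (dir θ u)) (s.L (dir θ u)) = Φ x0 (dir θ u)) ∧
  (∀ u ∈ Icc (-δ) δ, dco b s.j (s.L (dir θ u)) < 0 ∧ 0 < tau b s.y s.j (s.L (dir θ u)) ∧
    ∀ i, i ≠ s.j → 0 < b.coord i (s.y + tau b s.y s.j (s.L (dir θ u)) * s.L (dir θ u)))

theorem Good'.good {Φ : ℂ → ℂ → ℝ} {x0 θ : ℂ} {δ : ℝ} {s : St} (h : Good' b Φ x0 θ δ s) :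
    Good b (fun _ _ => 0) x0 θ δ s := by
  refine ⟨h.1, fun _ _ _ _ => rfl, fun u hu => ?_⟩
  obtain ⟨h1, h2, h3⟩ := h.2.2 u hu
  refine ⟨h1, h2, fun i => ?_⟩
  by_cases hi : i = s.j
  · rw [hi, coord_tau b h1]
  · exact (h3 i hi).le

theorem seg_pos {x d : ℂ} {R : ℝ} (hR : 0 < R) {i : Fin 3} (h1 : 0 ≤ b.coord i x)
    (h2 : 0 ≤ b.coord i (x + R * d)) (h12 : 0 < b.coord i x ∨ 0 < b.coord i (x + R * d)) {r : ℝ}
    (hr : 0 < r) (hrR : r < R) : 0 < b.coord i (x + r * d) := by
  rw [coord_add_smul] at h2 h12 ⊢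
  have key : R * (b.coord i x + r * dco b i d) = (R - r) * b.coord i x
      + r * (b.coord i x + R * dco b i d) := by ring
  have hpos : 0 < R * (b.coord i x + r * dco b i d) := by
    rw [key]
    rcases h12 with h | h
    · have := mul_pos (sub_pos.2 hrR) h
      have := mul_nonneg hr.le h2
      linarith
    · have := mul_nonneg (sub_pos.2 hrR).le h1
      have := mul_pos hr h
      linarith
  exact pos_of_mul_pos_right hpos hR.le

theorem next' {Φ : ℂ → ℂ → ℝ} (hΦ : Inv b Φ) {c : Fin 3 → ℝ}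
    (hV : ∀ (l : Fin 3) (x d : ℂ) (t : ℝ), d ≠ 0 → 0 < t → (∀ i, 0 < b.coord i x) →
      x + t * d = b l → Φ x d = c l)
    {x0 θ : ℂ} (hθ : ‖θ‖ = 1) {δ : ℝ} (hδ : 0 < δ)
    (hne : ∀ u ∈ Icc (-δ) δ, ∀ l, Φ x0 (dir θ u) ≠ c l) (s : St) (hs : Good' b Φ x0 θ δ s) :
    ∃ s' : St, Good' b Φ x0 θ δ s' ∧
      (∀ w, s'.L w = reflectDir (b (s.j + 2) - b (s.j + 1)) (s.L w)) ∧ s'.j ≠ s.j ∧
      ∀ u ∈ Icc (-δ) δ, tau b s.y s.j (s.L (dir θ u)) < tau b s'.y s'.j (s'.L (dir θ u)) := by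
  obtain ⟨hLin, hI, hC⟩ := hs
  set e : ℂ := b (s.j + 2) - b (s.j + 1) with he
  set y' : ℂ := s.y - 2 * b.coord s.j s.y * alt b s.j with hy'
  set L' : ℂ → ℂ := fun w => reflectDir e (s.L w) with hL'
  have hLin' : Lin L' := by
    refine ⟨fun a c => ?_, fun t a => ?_, fun a => ?_⟩
    · simp only [hL', hLin.1, reflectDir_add]
    · simp only [hL', hLin.2.1, reflectDir_smul]
    · simp only [hL', norm_reflectDir (edge_ne b s.j), he, hLin.2.2]
  have hd : ∀ u, s.L (dir θ u) ≠ 0 := fun u h => by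
    have := hLin.2.2 (dir θ u)
    rw [h, norm_zero] at this
    exact dir_ne hθ u (norm_eq_zero.1 this.symm)
  have hd' : ∀ u, L' (dir θ u) ≠ 0 := fun u h => by
    have := hLin'.2.2 (dir θ u)
    rw [h, norm_zero] at this
    exact dir_ne hθ u (norm_eq_zero.1 this.symm)
  have hfold : ∀ (u t : ℝ), y' + t * L' (dir θ u) = (s.y + t * s.L (dir θ u))
      - 2 * b.coord s.j (s.y + t * s.L (dir θ u)) * alt b s.j := by
    intro u t
    simp only [hL', hy', he]
    rw [reflect_formula, coord_add_smul]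
    push_cast
    ring
  have hP : ∀ u ∈ Icc (-δ) δ, y' + tau b s.y s.j (s.L (dir θ u)) * L' (dir θ u)
      = s.y + tau b s.y s.j (s.L (dir θ u)) * s.L (dir θ u) := by
    intro u hu
    rw [hfold, coord_tau b (hC u hu).1]
    push_cast
    ring
  have hneg : ∀ u, dco b s.j (L' (dir θ u)) = - dco b s.j (s.L (dir θ u)) := by
    intro u
    simp only [hL', he]
    rw [dco_reflect]
  have hP0 : ∀ u ∈ Icc (-δ) δ, ∀ i, 0 < b.coord i
      (s.y + tau b s.y s.j (s.L (dir θ u)) * s.L (dir θ u)) ∨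
      (b.coord i (s.y + tau b s.y s.j (s.L (dir θ u)) * s.L (dir θ u)) = 0 ∧ i = s.j) := by
    intro u hu i
    obtain ⟨h1, h2, h3⟩ := hC u hu
    by_cases hi : i = s.j
    · exact Or.inr ⟨by rw [hi, coord_tau b h1], hi⟩
    · exact Or.inl (h3 i hi)
  have hI' : ∀ u ∈ Icc (-δ) δ, ∀ t : ℝ, (∀ i, 0 < b.coord i (y' + t * L' (dir θ u))) →
      Φ (y' + t * L' (dir θ u)) (L' (dir θ u)) = Φ x0 (dir θ u) := by
    intro u hu t ht
    obtain ⟨h1, h2, h3⟩ := hC u hu
    set τ := tau b s.y s.j (s.L (dir θ u)) with hτ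
    set P : ℂ := s.y + τ * s.L (dir θ u) with hPdef
    have hPu : y' + τ * L' (dir θ u) = P := hP u hu
    have hmn : 0 < dco b s.j (-(s.L (dir θ u))) := by
      have h4 := dco_smul b s.j (-1) (s.L (dir θ u))
      have h5 : (((-1 : ℝ) : ℂ) * s.L (dir θ u)) = -(s.L (dir θ u)) := by push_cast; ring
      rw [h5] at h4
      rw [h4]
      linarith
    have hmp : 0 < dco b s.j (L' (dir θ u)) := by rw [hneg]; linarith
    have hev : ∀ w, 0 < dco b s.j w → ∀ᶠ r : ℝ in 𝓝[>] (0 : ℝ), ∀ k, 0 < b.coord k (P + r * w) := by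
      intro w hw
      rw [eventually_all]
      intro k
      apply ev_pos
      rcases hP0 u hu k with h | h
      · exact Or.inl h
      · exact Or.inr ⟨h.1, by rw [h.2]; exact hw⟩
    obtain ⟨r, hr1, hr2, hr3⟩ := ((hev _ hmn).and ((hev _ hmp).and self_mem_nhdsWithin)).exists
    have hr0 : (0 : ℝ) < r := hr3
    have a1 : P + r * -(s.L (dir θ u)) = s.y + ((τ - r : ℝ) : ℂ) * s.L (dir θ u) := by
      rw [hPdef]; push_cast; ring
    have a2 : P + r * -(s.L (dir θ u)) + r * s.L (dir θ u) = P := by ring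
    have a3 : y' + t * L' (dir θ u) = (P + r * L' (dir θ u)) + ((t - τ - r : ℝ) : ℂ) * L' (dir θ u) := by
      rw [← hPu]; push_cast; ring
    have hside : P ∈ openSegment ℝ (b (s.j + 1)) (b (s.j + 2)) := by
      have h6 : ∀ j : Fin 3, j + 1 ≠ j ∧ j + 2 ≠ j := by decide
      exact mem_side b (coord_tau b h1) (h3 _ (h6 s.j).1) (h3 _ (h6 s.j).2)
    have b1 := hΦ.bounce s.j (P + r * -(s.L (dir θ u))) (s.L (dir θ u)) r r (hd u) hr0 hr0 hr1
      (by rw [a2]; exact hside) (by rw [a2]; exact hr2)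
    rw [a2] at b1
    change Φ (P + r * L' (dir θ u)) (L' (dir θ u)) = _ at b1
    have b2 := hI u hu (τ - r) (by rw [← a1]; exact hr1)
    rw [← a1] at b2
    rw [a3] at ht ⊢
    rw [hΦ.free _ _ _ (hd' u) hr2 ht, b1, b2]
  have hvert : ∀ u ∈ Icc (-δ) δ, ∀ r : ℝ, tau b s.y s.j (s.L (dir θ u)) < r →
      ∀ l : Fin 3, y' + r * L' (dir θ u) ≠ b l := by
    intro u hu r hr l hrl
    obtain ⟨h1, h2, h3⟩ := hC u hu
    set τ := tau b s.y s.j (s.L (dir θ u)) with hτ
    set P : ℂ := s.y + τ * s.L (dir θ u) with hPdef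
    have hPu : y' + τ * L' (dir θ u) = P := hP u hu
    have hmp : 0 < dco b s.j (L' (dir θ u)) := by rw [hneg]; linarith
    have hR : 0 < r - τ := by linarith
    have a1 : P + ((r - τ : ℝ) : ℂ) * L' (dir θ u) = b l := by
      rw [← hrl, ← hPu]; push_cast; ring
    have hint : ∀ i, 0 < b.coord i (P + (((r - τ) / 2 : ℝ) : ℂ) * L' (dir θ u)) := by
      intro i
      refine seg_pos b hR ?_ ?_ ?_ (by linarith) (by linarith)
      · rcases hP0 u hu i with h | h
        · exact h.le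
        · exact h.1.ge
      · rw [a1, coord_vertex]; split_ifs <;> norm_num
      · rcases hP0 u hu i with h | h
        · exact Or.inl h
        · right
          rw [coord_add_smul, h.1, h.2, zero_add]
          exact mul_pos hR hmp
    have a2 : P + (((r - τ) / 2 : ℝ) : ℂ) * L' (dir θ u)
        = y' + ((τ + (r - τ) / 2 : ℝ) : ℂ) * L' (dir θ u) := by
      rw [← hPu]; push_cast; ring
    have a3 := hV l _ (L' (dir θ u)) ((r - τ) / 2) (hd' u) (by linarith) hint
      (by rw [← a1]; push_cast; ring)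
    rw [a2] at a3 hint
    rw [hI' u hu _ hint] at a3
    exact hne u hu l a3
  obtain ⟨j', hj'⟩ := step' b (isPreconnected_Icc) ⟨0, by constructor <;> linarith⟩ y'
    (fun u => L' (dir θ u)) (hLin'.cont.comp (dir_cont θ)) (fun u _ => hd' u)
    (fun u => tau b s.y s.j (s.L (dir θ u)))
    (fun u hu i => by
      rw [hP u hu]
      rcases hP0 u hu i with h | h
      · exact h.le
      · exact h.1.ge)
    (fun u hu i hi => by
      rw [hP u hu] at hi
      rcases hP0 u hu i with h | h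
      · exact absurd hi h.ne'
      · rw [h.2, hneg]
        linarith [(hC u hu).1])
    hvert
  refine ⟨⟨y', L', j'⟩, ⟨hLin', hI', fun u hu => ⟨(hj' u hu).1, ?_, fun i hi => ?_⟩⟩,
    fun w => rfl, ?_, fun u hu => (hj' u hu).2.1⟩
  · exact (hC u hu).2.1.trans (hj' u hu).2.1
  · rcases ((hj' u hu).2.2 i).lt_or_eq with h | h
    · exact h
    · obtain ⟨l, hl⟩ := vertex_of_zero b hi h.symm (coord_tau b (y := y') (hj' u hu).1)
      exact absurd hl (hvert u hu _ (hj' u hu).2.1 l)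
  · intro hjj
    have h0 : (0 : ℝ) ∈ Icc (-δ) δ := by constructor <;> linarith
    have h1 := (hj' 0 h0).1
    change j' = s.j at hjj
    rw [hjj, hneg] at h1
    linarith [(hC 0 h0).1]

theorem beam' {Φ : ℂ → ℂ → ℝ} (hΦ : Inv b Φ) {c : Fin 3 → ℝ}
    (hV : ∀ (l : Fin 3) (x d : ℂ) (t : ℝ), d ≠ 0 → 0 < t → (∀ i, 0 < b.coord i x) →
      x + t * d = b l → Φ x d = c l)
    {x0 θ : ℂ} (hx0 : ∀ i, 0 < b.coord i x0) (hθ : ‖θ‖ = 1) {δ : ℝ} (hδ : 0 < δ)
    (hne : ∀ u ∈ Icc (-δ) δ, ∀ l, Φ x0 (dir θ u) ≠ c l) : False := by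
  have hvert : ∀ u ∈ Icc (-δ) δ, ∀ r : ℝ, 0 < r → ∀ l : Fin 3, x0 + r * dir θ u ≠ b l := by
    intro u hu r hr l hrl
    exact hne u hu l (hV l x0 (dir θ u) r (dir_ne hθ u) hr hx0 hrl)
  obtain ⟨j, hj⟩ := step' b (isPreconnected_Icc (a := -δ) (b := δ))
    ⟨0, by constructor <;> linarith⟩ x0 (dir θ) (dir_cont θ) (fun u _ => dir_ne hθ u)
    (fun _ => 0) (fun u _ i => by simpa using (hx0 i).le)
    (fun u _ i hi => by
      have : b.coord i x0 = 0 := by simpa using hi
      exact absurd this (hx0 i).ne')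
    hvert
  have hs0 : Good' b Φ x0 θ δ ⟨x0, fun w => w, j⟩ := by
    refine ⟨⟨fun _ _ => rfl, fun _ _ => rfl, fun _ => rfl⟩, fun u _ t ht => ?_, fun u hu =>
      ⟨(hj u hu).1, (hj u hu).2.1, fun i hi => ?_⟩⟩
    · exact hΦ.free x0 (dir θ u) t (dir_ne hθ u) hx0 ht
    · rcases ((hj u hu).2.2 i).lt_or_eq with h | h
      · exact h
      · obtain ⟨l, hl⟩ := vertex_of_zero b hi h.symm (coord_tau b (y := x0) (hj u hu).1)
        exact absurd hl (hvert u hu _ (hj u hu).2.1 l)
  have hn := fun s : {s : St // Good' b Φ x0 θ δ s} =>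
    next' b hΦ hV hθ hδ hne s.1 s.2
  choose g hg1 hg2 hg3 hg4 using hn
  set S : ℕ → {s : St // Good' b Φ x0 θ δ s} := fun n =>
    Nat.rec ⟨⟨x0, fun w => w, j⟩, hs0⟩ (fun _ s => ⟨g s, hg1 s⟩) n with hS
  exact zeno b hθ hδ (fun n => (S n).1) (fun n => (S n).2.good) (fun n w => hg2 (S n) w)
    (fun n => hg3 (S n)) (fun n u hu => hg4 (S n) u hu)

end beam2

theorem inv_of (b : AffineBasis (Fin 3) ℝ ℂ) {f : ℂ → ℂ → ℝ}
    (hf : ContinuousOn (fun z : ℂ × ℂ => f z.1 z.2)
      (interior (table b) ×ˢ Metric.sphere 0 1))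
    (hinv : ∀ (t : ℝ) (x θ y φ : ℂ), Flow b t x θ y φ → f y φ = f x θ) :
    Inv b (fun x d => f x (d / ‖d‖)) := by
  have hunit : ∀ d : ℂ, d ≠ 0 → ‖d / (‖d‖ : ℂ)‖ = 1 := by
    intro d hd
    rw [norm_div, Complex.norm_real, norm_norm, div_self (norm_ne_zero_iff.2 hd)]
  have hscale : ∀ (d : ℂ) (t : ℝ), d ≠ 0 → (t : ℂ) * d = ((t * ‖d‖ : ℝ) : ℂ) * (d / ‖d‖) := by
    intro d t hd
    have hn : ((‖d‖ : ℝ) : ℂ) ≠ 0 := by exact_mod_cast norm_ne_zero_iff.2 hd
    push_cast
    field_simp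
  have hrefl : ∀ (i : Fin 3) (d : ℂ), reflectDir (b (i + 2) - b (i + 1)) d
      / ‖reflectDir (b (i + 2) - b (i + 1)) d‖
      = reflectDir (b (i + 2) - b (i + 1)) (d / ‖d‖) := by
    intro i d
    rw [norm_reflectDir (edge_ne b i)]
    have : d / (‖d‖ : ℂ) = ((‖d‖⁻¹ : ℝ) : ℂ) * d := by push_cast; ring
    rw [this, reflectDir_smul]
    push_cast
    ring
  refine ⟨?_, ?_, ?_, ?_⟩
  · intro x d t hd hx hy
    rw [hscale d t hd] at hy ⊢
    exact free_int b hinv (hunit d hd) _ hx hy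
  · intro i x d s t hd hs ht hx hside hy
    have hdn : 0 < ‖d‖ := norm_pos_iff.2 hd
    have hrd : reflectDir (b (i + 2) - b (i + 1)) d ≠ 0 := by
      intro h
      have := norm_reflectDir (edge_ne b i) d
      rw [h, norm_zero] at this
      exact hdn.ne this
    rw [hrefl]
    have e1 := hscale d s hd
    have e2 := hscale (reflectDir (b (i + 2) - b (i + 1)) d) t hrd
    rw [hrefl, norm_reflectDir (edge_ne b i)] at e2
    rw [e1] at hside
    rw [e1, e2] at hy ⊢
    exact hinv _ _ _ _ _ (Flow.bounce i (s * ‖d‖) (t * ‖d‖) x (d / ‖d‖) (hunit d hd)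
      (mul_pos hs hdn) (mul_pos ht hdn) ((mem_int b).2 hx) hside ((mem_int b).2 hy))
  · have hmap : ContinuousOn (fun z : ℂ × ℂ => (z.1, z.2 / (‖z.2‖ : ℂ)))
        ({x | ∀ i, 0 < b.coord i x} ×ˢ {d | d ≠ 0}) := by
      refine continuousOn_fst.prodMk (ContinuousOn.div continuousOn_snd
        (Complex.continuous_ofReal.comp_continuousOn continuousOn_snd.norm) fun z hz => ?_)
      exact_mod_cast norm_ne_zero_iff.2 hz.2
    refine hf.comp hmap fun z hz => ⟨(mem_int b).2 hz.1, ?_⟩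
    rw [mem_sphere_zero_iff_norm]
    exact hunit _ hz.2
  · intro x d r hr
    congr 1
    rw [norm_mul, Complex.norm_real, Real.norm_eq_abs, abs_of_pos hr]
    have : (r : ℂ) ≠ 0 := by exact_mod_cast hr.ne'
    push_cast
    rw [mul_div_mul_left _ _ this]

theorem main_open (p : Fin 3 → ℂ) (hp : AffineIndependent ℝ p)
    (hirr : ∀ i, Irrational (EuclideanGeometry.angle (p (i + 1)) (p i) (p (i + 2)) / Real.pi))
    (f : ℂ → ℂ → ℝ)
    (hf : ContinuousOn (fun z : ℂ × ℂ => f z.1 z.2)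
      (interior (table p) ×ˢ Metric.sphere 0 1))
    (hinv : ∀ (t : ℝ) (x θ y φ : ℂ), Flow p t x θ y φ → f y φ = f x θ) :
    ∃ c : ℝ, ∀ x ∈ interior (table p), ∀ θ : ℂ, ‖θ‖ = 1 → f x θ = c := by
  have htop : affineSpan ℝ (Set.range p) = ⊤ := by
    rw [hp.affineSpan_eq_top_iff_card_eq_finrank_add_one, Complex.finrank_real_complex]
    rfl
  set b : AffineBasis (Fin 3) ℝ ℂ := ⟨p, hp, htop⟩ with hb
  have hΦ : Inv b (fun x d => f x (d / ‖d‖)) := inv_of b hf hinv
  set Φ : ℂ → ℂ → ℝ := fun x d => f x (d / ‖d‖) with hΦdef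
  -- vertices
  have hV0 : ∀ l : Fin 3, ∃ c : ℝ, ∀ (x d : ℂ) (t : ℝ), d ≠ 0 → 0 < t →
      (∀ i, 0 < b.coord i x) → x + t * d = b l → Φ x d = c := by
    intro l
    obtain ⟨r0, E, hS, hpol⟩ := exists_sector_at b l
    obtain ⟨c, hc⟩ := vertex_const hS hΦ (hirr l)
    refine ⟨c, fun x d t hd ht hx hxt => ?_⟩
    obtain ⟨ρ, ψ, hρ, hψ0, hψ1, hxe⟩ := hpol x hx
    have hr0 := hS.r0_pos
    set s : ℝ := r0 / 2 with hs
    have hs0 : 0 < s := by linarith
    have hs1 : s < r0 := by linarith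
    have ht0 : (t : ℂ) ≠ 0 := by exact_mod_cast ht.ne'
    have e1 : d = ((ρ / t : ℝ) : ℂ) * E (ψ + Real.pi) := by
      rw [hS.add_pi]
      push_cast
      have h1 : (t : ℂ) * d = -(ρ * E ψ) := by
        rw [hxe] at hxt
        linear_combination hxt
      field_simp
      linear_combination h1
    rw [e1, hΦ.hom _ _ _ (div_pos hρ ht), ← hc s ψ hs0 hs1 hψ0 hψ1]
    have e2 : x = b l + s * E ψ + ((s - ρ : ℝ) : ℂ) * E (ψ + Real.pi) := by
      rw [hS.add_pi, hxe]
      push_cast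
      ring
    rw [e2] at hx ⊢
    exact hΦ.free _ _ _ (hS.ne _) (hS.inT s ψ hs0 hs1 hψ0 hψ1) hx
  choose c hV using hV0
  -- the values at a point
  have hval : ∀ x0, (∀ i, 0 < b.coord i x0) → ∀ θ : ℂ, ‖θ‖ = 1 → f x0 θ ∈ Set.range c := by
    intro x0 hx0 θ hθ
    by_contra hne
    have hcont : Continuous fun u : ℝ => Φ x0 (dir θ u) := by
      refine continuous_iff_continuousAt.2 fun u => ?_
      exact tendsto_Inv hΦ hx0 (dir_ne hθ u) tendsto_const_nhds ((dir_cont θ).tendsto u)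
    have h0 : Φ x0 (dir θ 0) ∉ Set.range c := by
      have : dir θ 0 = θ := by simp [dir]
      rw [this]
      simp only [hΦdef]
      rw [hθ]
      simpa using hne
    have hcl : IsClosed (Set.range c) := (Set.finite_range c).isClosed
    have hev : ∀ᶠ u in 𝓝 (0 : ℝ), Φ x0 (dir θ u) ∉ Set.range c :=
      hcont.continuousAt.preimage_mem_nhds (hcl.isOpen_compl.mem_nhds h0)
    obtain ⟨δ, hδ, hball⟩ := Metric.eventually_nhds_iff.1 hev
    refine beam' b hΦ hV hx0 hθ (δ := δ / 2) (by linarith) fun u hu l hl => hball ?_ ⟨l, hl.symm⟩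
    rw [dist_zero_right, Real.norm_eq_abs]
    have := abs_le.2 hu
    linarith
  -- constant in the direction
  have hdir : ∀ x0, (∀ i, 0 < b.coord i x0) → ∀ θ : ℂ, ‖θ‖ = 1 → f x0 θ = f x0 1 := by
    intro x0 hx0 θ hθ
    have hcont : Continuous fun s : ℝ => f x0 (Complex.exp (s * Complex.I)) := by
      have h1 : Continuous fun s : ℝ => ((x0, Complex.exp (s * Complex.I)) : ℂ × ℂ) := by fun_prop
      refine hf.comp_continuous h1 fun s => ⟨(mem_int b).2 hx0, ?_⟩
      simp [Complex.norm_exp_ofReal_mul_I]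
    have hsub : Set.range (fun s : ℝ => f x0 (Complex.exp (s * Complex.I))) ⊆ Set.range c := by
      rintro _ ⟨s, rfl⟩
      exact hval x0 hx0 _ (Complex.norm_exp_ofReal_mul_I s)
    have hfin : (Set.range (fun s : ℝ => f x0 (Complex.exp (s * Complex.I)))).Finite :=
      (Set.finite_range c).subset hsub
    have hpre : IsPreconnected (Set.range (fun s : ℝ => f x0 (Complex.exp (s * Complex.I)))) :=
      isPreconnected_range hcont
    have hss : (Set.range (fun s : ℝ => f x0 (Complex.exp (s * Complex.I)))).Subsingleton := by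
      by_contra hcon
      exact hpre.infinite_of_nontrivial (Set.not_subsingleton_iff.1 hcon) hfin
    have h6 : Complex.exp (θ.arg * Complex.I) = θ := by
      have := Complex.norm_mul_exp_arg_mul_I θ
      rw [hθ] at this
      simpa using this
    have h7 := hss ⟨θ.arg, rfl⟩ ⟨0, rfl⟩
    simp only [h6] at h7
    rw [h7]
    simp
  obtain ⟨o, ho⟩ : ∃ o, ∀ i, 0 < b.coord i o :=
    ⟨_, (mem_int b).1 b.centroid_mem_interior_convexHull⟩
  refine ⟨f o 1, fun x hx θ hθ => ?_⟩
  have hx' : ∀ i, 0 < b.coord i x := (mem_int b).1 hx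
  rw [hdir x hx' θ hθ]
  by_cases hxo : x = o
  · rw [hxo]
  have hn : ‖x - o‖ ≠ 0 := norm_ne_zero_iff.2 (sub_ne_zero.2 hxo)
  have hn' : ((‖x - o‖ : ℝ) : ℂ) ≠ 0 := by exact_mod_cast hn
  set φ : ℂ := (x - o) / ‖x - o‖ with hφ
  have hφ1 : ‖φ‖ = 1 := by rw [hφ, norm_div, Complex.norm_real, norm_norm, div_self hn]
  have e : o + ((‖x - o‖ : ℝ) : ℂ) * φ = x := by
    rw [hφ]
    field_simp
    ring
  have h1 := free_int b hinv hφ1 ‖x - o‖ ho (by rw [e]; exact hx')
  rw [e, hdir x hx' φ hφ1, hdir o ho φ hφ1] at h1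
  exact h1

end Vale.Agent.P099

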